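import Crest.Agent.H9.FdI

/-! Row 178: the Koszul complex in four variables. -/

set_option autoImplicit false

noncomputable section
namespace Crest.Agent.H5.Fd
open Crest.Agent.H9.Fd MvPolynomial

lemma eul {p : P} {n : ℕ} (h : p.IsHomogeneous n) :
    X 0 * pderiv 0 p + X 1 * pderiv 1 p + X 2 * pderiv 2 p + X 3 * pderiv 3 p = (n : P) * p := by
  have := h.sum_X_mul_pderiv
  rwa [Fin.sum_univ_four, nsmul_eq_mul] at this

lemma pd0 {p : P} (h : p.IsHomogeneous 0) (i : Fin 4) : pderiv i p = 0 := by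
  rw [← totalDegree_zero_iff_isHomogeneous, totalDegree_eq_zero_iff_eq_C] at h
  rw [h, pderiv_C]

lemma pdh {p : P} {m : ℕ} (h : p.IsHomogeneous (m + 1)) (i : Fin 4) :
    (pderiv i p).IsHomogeneous m := h.pderiv

lemma dX (i j : Fin 4) (p : P) : pderiv i (p * X j) = pderiv i p * X j + if j = i then p else 0 := by
  rw [Derivation.leibniz, pderiv_X]
  by_cases h : j = i
  · subst h; simp [add_comm, mul_comm]
  · simp [h, mul_comm]

/-- from the homotopy identity to exactness -/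
lemma ex_of {κ' κ ι : Type} [Fintype κ'] [Fintype κ] (D' : Matrix κ' κ P) (D : Matrix κ ι P)
    (r : ℕ) (h : (κ → P) → κ' → P) (h0 : D' * D = 0)
    (hz : ∀ p, (∀ k, (p k).IsHomogeneous 0) → h p = 0)
    (hh : ∀ m p, (∀ k, (p k).IsHomogeneous (m + 1)) → ∀ k, (h p k).IsHomogeneous m)
    (he : ∀ (n : ℕ) p, (∀ k, (p k).IsHomogeneous n) → Matrix.vecMul p D = 0 →
      ∀ k, Matrix.vecMul (h p) D' k = ((n + r + 1 : ℕ) : P) * p k) : Ex D' D := by
  refine ⟨h0, fun p hp hp0 => funext fun k => ?_, fun m p hp hp0 => ?_⟩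
  · have := he 0 p hp hp0 k
    rw [hz p hp, Matrix.zero_vecMul] at this
    exact (mul_eq_zero.1 this.symm).resolve_left (Nat.cast_ne_zero.2 (by omega))
  · refine ⟨((m + 1 + r + 1 : ℕ) : ℂ)⁻¹ • h p, fun k => (homogeneousSubmodule _ _ m).smul_mem _ (hh m p hp k),
      funext fun k => ?_⟩
    rw [Matrix.smul_vecMul, Pi.smul_apply, he _ p hp hp0 k, ← nsmul_eq_mul, ← Nat.cast_smul_eq_nsmul ℂ,
      smul_smul, inv_mul_cancel₀ (Nat.cast_ne_zero.2 (by omega)), one_smul]

def K1 : Matrix (Fin 4) (Fin 1) P :=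
  !![X 0;
    X 1;
    X 2;
    X 3]

lemma K1_hom (i : Fin 4) (j : Fin 1) : (K1 i j).IsHomogeneous 1 := by
  fin_cases i <;> fin_cases j <;>
    first | exact isHomogeneous_X _ _ | exact (isHomogeneous_X _ _).neg | exact isHomogeneous_zero _ _ _

lemma K1_v0 (p : Fin 4 → P) : Matrix.vecMul p K1 0 = (p 0 * X 0) + p 1 * X 1 + p 2 * X 2 + p 3 * X 3 := by
  simp [K1, Matrix.vecMul, dotProduct, Fin.sum_univ_succ]; try ring

def K2 : Matrix (Fin 6) (Fin 4) P :=
  !![-X 1, X 0, 0, 0;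
    -X 2, 0, X 0, 0;
    -X 3, 0, 0, X 0;
    0, -X 2, X 1, 0;
    0, -X 3, 0, X 1;
    0, 0, -X 3, X 2]

lemma K2_hom (i : Fin 6) (j : Fin 4) : (K2 i j).IsHomogeneous 1 := by
  fin_cases i <;> fin_cases j <;>
    first | exact isHomogeneous_X _ _ | exact (isHomogeneous_X _ _).neg | exact isHomogeneous_zero _ _ _

lemma K2_v0 (p : Fin 6 → P) : Matrix.vecMul p K2 0 = -(p 0 * X 1) - p 1 * X 2 - p 2 * X 3 := by
  simp [K2, Matrix.vecMul, dotProduct, Fin.sum_univ_succ]; try ring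

lemma K2_v1 (p : Fin 6 → P) : Matrix.vecMul p K2 1 = (p 0 * X 0) - p 3 * X 2 - p 4 * X 3 := by
  simp [K2, Matrix.vecMul, dotProduct, Fin.sum_univ_succ]; try ring

lemma K2_v2 (p : Fin 6 → P) : Matrix.vecMul p K2 2 = (p 1 * X 0) + p 3 * X 1 - p 5 * X 3 := by
  simp [K2, Matrix.vecMul, dotProduct, Fin.sum_univ_succ]; try ring

lemma K2_v3 (p : Fin 6 → P) : Matrix.vecMul p K2 3 = (p 2 * X 0) + p 4 * X 1 + p 5 * X 2 := by
  simp [K2, Matrix.vecMul, dotProduct, Fin.sum_univ_succ]; try ring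

def K3 : Matrix (Fin 4) (Fin 6) P :=
  !![X 2, -X 1, 0, X 0, 0, 0;
    X 3, 0, -X 1, 0, X 0, 0;
    0, X 3, -X 2, 0, 0, X 0;
    0, 0, 0, X 3, -X 2, X 1]

lemma K3_hom (i : Fin 4) (j : Fin 6) : (K3 i j).IsHomogeneous 1 := by
  fin_cases i <;> fin_cases j <;>
    first | exact isHomogeneous_X _ _ | exact (isHomogeneous_X _ _).neg | exact isHomogeneous_zero _ _ _

lemma K3_v0 (p : Fin 4 → P) : Matrix.vecMul p K3 0 = (p 0 * X 2) + p 1 * X 3 := by
  simp [K3, Matrix.vecMul, dotProduct, Fin.sum_univ_succ]; try ring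

lemma K3_v1 (p : Fin 4 → P) : Matrix.vecMul p K3 1 = -(p 0 * X 1) + p 2 * X 3 := by
  simp [K3, Matrix.vecMul, dotProduct, Fin.sum_univ_succ]; try ring

lemma K3_v2 (p : Fin 4 → P) : Matrix.vecMul p K3 2 = -(p 1 * X 1) - p 2 * X 2 := by
  simp [K3, Matrix.vecMul, dotProduct, Fin.sum_univ_succ]; try ring

lemma K3_v3 (p : Fin 4 → P) : Matrix.vecMul p K3 3 = (p 0 * X 0) + p 3 * X 3 := by
  simp [K3, Matrix.vecMul, dotProduct, Fin.sum_univ_succ]; try ring

lemma K3_v4 (p : Fin 4 → P) : Matrix.vecMul p K3 4 = (p 1 * X 0) - p 3 * X 2 := by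
  simp [K3, Matrix.vecMul, dotProduct, Fin.sum_univ_succ]; try ring

lemma K3_v5 (p : Fin 4 → P) : Matrix.vecMul p K3 5 = (p 2 * X 0) + p 3 * X 1 := by
  simp [K3, Matrix.vecMul, dotProduct, Fin.sum_univ_succ]; try ring

def K4 : Matrix (Fin 1) (Fin 4) P :=
  !![-X 3, X 2, -X 1, X 0]

lemma K4_hom (i : Fin 1) (j : Fin 4) : (K4 i j).IsHomogeneous 1 := by
  fin_cases i <;> fin_cases j <;>
    first | exact isHomogeneous_X _ _ | exact (isHomogeneous_X _ _).neg | exact isHomogeneous_zero _ _ _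

lemma K4_v0 (p : Fin 1 → P) : Matrix.vecMul p K4 0 = -(p 0 * X 3) := by
  simp [K4, Matrix.vecMul, dotProduct, Fin.sum_univ_succ]; try ring

lemma K4_v1 (p : Fin 1 → P) : Matrix.vecMul p K4 1 = (p 0 * X 2) := by
  simp [K4, Matrix.vecMul, dotProduct, Fin.sum_univ_succ]; try ring

lemma K4_v2 (p : Fin 1 → P) : Matrix.vecMul p K4 2 = -(p 0 * X 1) := by
  simp [K4, Matrix.vecMul, dotProduct, Fin.sum_univ_succ]; try ring

lemma K4_v3 (p : Fin 1 → P) : Matrix.vecMul p K4 3 = (p 0 * X 0) := by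
  simp [K4, Matrix.vecMul, dotProduct, Fin.sum_univ_succ]; try ring

def H0 (p : Fin 1 → P) : Fin 4 → P :=
  ![pderiv 0 (p 0),
    pderiv 1 (p 0),
    pderiv 2 (p 0),
    pderiv 3 (p 0)]

lemma H0_0 (p : Fin 1 → P) : H0 p 0 = pderiv 0 (p 0) := rfl

lemma H0_1 (p : Fin 1 → P) : H0 p 1 = pderiv 1 (p 0) := rfl

lemma H0_2 (p : Fin 1 → P) : H0 p 2 = pderiv 2 (p 0) := rfl

lemma H0_3 (p : Fin 1 → P) : H0 p 3 = pderiv 3 (p 0) := rfl

lemma H0_hom (m : ℕ) (p : Fin 1 → P) (hp : ∀ k, (p k).IsHomogeneous (m + 1)) (k : Fin 4) :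
    (H0 p k).IsHomogeneous m := by
  fin_cases k
  · exact pdh (hp _) _
  · exact pdh (hp _) _
  · exact pdh (hp _) _
  · exact pdh (hp _) _

def H1 (p : Fin 4 → P) : Fin 6 → P :=
  ![-pderiv 1 (p 0) + pderiv 0 (p 1),
    -pderiv 2 (p 0) + pderiv 0 (p 2),
    -pderiv 3 (p 0) + pderiv 0 (p 3),
    -pderiv 2 (p 1) + pderiv 1 (p 2),
    -pderiv 3 (p 1) + pderiv 1 (p 3),
    -pderiv 3 (p 2) + pderiv 2 (p 3)]

lemma H1_0 (p : Fin 4 → P) : H1 p 0 = -pderiv 1 (p 0) + pderiv 0 (p 1) := rfl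

lemma H1_1 (p : Fin 4 → P) : H1 p 1 = -pderiv 2 (p 0) + pderiv 0 (p 2) := rfl

lemma H1_2 (p : Fin 4 → P) : H1 p 2 = -pderiv 3 (p 0) + pderiv 0 (p 3) := rfl

lemma H1_3 (p : Fin 4 → P) : H1 p 3 = -pderiv 2 (p 1) + pderiv 1 (p 2) := rfl

lemma H1_4 (p : Fin 4 → P) : H1 p 4 = -pderiv 3 (p 1) + pderiv 1 (p 3) := rfl

lemma H1_5 (p : Fin 4 → P) : H1 p 5 = -pderiv 3 (p 2) + pderiv 2 (p 3) := rfl

lemma H1_hom (m : ℕ) (p : Fin 4 → P) (hp : ∀ k, (p k).IsHomogeneous (m + 1)) (k : Fin 6) :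
    (H1 p k).IsHomogeneous m := by
  fin_cases k
  · exact ((pdh (hp _) _).neg).add (pdh (hp _) _)
  · exact ((pdh (hp _) _).neg).add (pdh (hp _) _)
  · exact ((pdh (hp _) _).neg).add (pdh (hp _) _)
  · exact ((pdh (hp _) _).neg).add (pdh (hp _) _)
  · exact ((pdh (hp _) _).neg).add (pdh (hp _) _)
  · exact ((pdh (hp _) _).neg).add (pdh (hp _) _)

lemma H1_zero (p : Fin 4 → P) (hp : ∀ k, (p k).IsHomogeneous 0) : H1 p = 0 := by
  funext k
  fin_cases k <;> simp [H1, pd0 (hp _)]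

lemma H1_eq (n : ℕ) (p : Fin 4 → P) (hp : ∀ k, (p k).IsHomogeneous n)
    (h0 : Matrix.vecMul p K1 = 0) (k : Fin 4) :
    Matrix.vecMul (H1 p) K2 k = ((n + 0 + 1 : ℕ) : P) * p k := by
  have r0 := (K1_v0 p).symm.trans (congrFun h0 0)
  fin_cases k
  · show Matrix.vecMul (H1 p) K2 0 = _ * p 0
    have a0 := congrArg (pderiv 0) r0
    simp only [map_add, map_sub, map_neg, dX, Pi.zero_apply, map_zero] at a0
    simp only [Fin.reduceEq, if_true, if_false, add_zero] at a0
    rw [K2_v0]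
    simp only [H1_0, H1_1, H1_2, H1_3, H1_4, H1_5]
    push_cast
    linear_combination eul (hp 0) - a0
  · show Matrix.vecMul (H1 p) K2 1 = _ * p 1
    have a1 := congrArg (pderiv 1) r0
    simp only [map_add, map_sub, map_neg, dX, Pi.zero_apply, map_zero] at a1
    simp only [Fin.reduceEq, if_true, if_false, add_zero] at a1
    rw [K2_v1]
    simp only [H1_0, H1_1, H1_2, H1_3, H1_4, H1_5]
    push_cast
    linear_combination eul (hp 1) - a1
  · show Matrix.vecMul (H1 p) K2 2 = _ * p 2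
    have a2 := congrArg (pderiv 2) r0
    simp only [map_add, map_sub, map_neg, dX, Pi.zero_apply, map_zero] at a2
    simp only [Fin.reduceEq, if_true, if_false, add_zero] at a2
    rw [K2_v2]
    simp only [H1_0, H1_1, H1_2, H1_3, H1_4, H1_5]
    push_cast
    linear_combination eul (hp 2) - a2
  · show Matrix.vecMul (H1 p) K2 3 = _ * p 3
    have a3 := congrArg (pderiv 3) r0
    simp only [map_add, map_sub, map_neg, dX, Pi.zero_apply, map_zero] at a3
    simp only [Fin.reduceEq, if_true, if_false, add_zero] at a3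
    rw [K2_v3]
    simp only [H1_0, H1_1, H1_2, H1_3, H1_4, H1_5]
    push_cast
    linear_combination eul (hp 3) - a3

lemma K2_K1 : K2 * K1 = 0 := by
  ext1 i j
  fin_cases i <;> fin_cases j <;> simp [K2, K1, Matrix.mul_apply, Fin.sum_univ_succ] <;> ring

def H2 (p : Fin 6 → P) : Fin 4 → P :=
  ![pderiv 2 (p 0) - pderiv 1 (p 1) + pderiv 0 (p 3),
    pderiv 3 (p 0) - pderiv 1 (p 2) + pderiv 0 (p 4),
    pderiv 3 (p 1) - pderiv 2 (p 2) + pderiv 0 (p 5),
    pderiv 3 (p 3) - pderiv 2 (p 4) + pderiv 1 (p 5)]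

lemma H2_0 (p : Fin 6 → P) : H2 p 0 = pderiv 2 (p 0) - pderiv 1 (p 1) + pderiv 0 (p 3) := rfl

lemma H2_1 (p : Fin 6 → P) : H2 p 1 = pderiv 3 (p 0) - pderiv 1 (p 2) + pderiv 0 (p 4) := rfl

lemma H2_2 (p : Fin 6 → P) : H2 p 2 = pderiv 3 (p 1) - pderiv 2 (p 2) + pderiv 0 (p 5) := rfl

lemma H2_3 (p : Fin 6 → P) : H2 p 3 = pderiv 3 (p 3) - pderiv 2 (p 4) + pderiv 1 (p 5) := rfl

lemma H2_hom (m : ℕ) (p : Fin 6 → P) (hp : ∀ k, (p k).IsHomogeneous (m + 1)) (k : Fin 4) :
    (H2 p k).IsHomogeneous m := by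
  fin_cases k
  · exact ((pdh (hp _) _).sub (pdh (hp _) _)).add (pdh (hp _) _)
  · exact ((pdh (hp _) _).sub (pdh (hp _) _)).add (pdh (hp _) _)
  · exact ((pdh (hp _) _).sub (pdh (hp _) _)).add (pdh (hp _) _)
  · exact ((pdh (hp _) _).sub (pdh (hp _) _)).add (pdh (hp _) _)

lemma H2_zero (p : Fin 6 → P) (hp : ∀ k, (p k).IsHomogeneous 0) : H2 p = 0 := by
  funext k
  fin_cases k <;> simp [H2, pd0 (hp _)]

lemma H2_eq (n : ℕ) (p : Fin 6 → P) (hp : ∀ k, (p k).IsHomogeneous n)
    (h0 : Matrix.vecMul p K2 = 0) (k : Fin 6) :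
    Matrix.vecMul (H2 p) K3 k = ((n + 1 + 1 : ℕ) : P) * p k := by
  have r0 := (K2_v0 p).symm.trans (congrFun h0 0)
  have r1 := (K2_v1 p).symm.trans (congrFun h0 1)
  have r2 := (K2_v2 p).symm.trans (congrFun h0 2)
  have r3 := (K2_v3 p).symm.trans (congrFun h0 3)
  fin_cases k
  · show Matrix.vecMul (H2 p) K3 0 = _ * p 0
    have a0 := congrArg (pderiv 0) r1
    simp only [map_add, map_sub, map_neg, dX, Pi.zero_apply, map_zero] at a0
    simp only [Fin.reduceEq, if_true, if_false, add_zero] at a0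
    have a1 := congrArg (pderiv 1) r0
    simp only [map_add, map_sub, map_neg, dX, Pi.zero_apply, map_zero] at a1
    simp only [Fin.reduceEq, if_true, if_false, add_zero] at a1
    rw [K3_v0]
    simp only [H2_0, H2_1, H2_2, H2_3]
    push_cast
    linear_combination eul (hp 0) - a0 + a1
  · show Matrix.vecMul (H2 p) K3 1 = _ * p 1
    have a0 := congrArg (pderiv 0) r2
    simp only [map_add, map_sub, map_neg, dX, Pi.zero_apply, map_zero] at a0
    simp only [Fin.reduceEq, if_true, if_false, add_zero] at a0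
    have a2 := congrArg (pderiv 2) r0
    simp only [map_add, map_sub, map_neg, dX, Pi.zero_apply, map_zero] at a2
    simp only [Fin.reduceEq, if_true, if_false, add_zero] at a2
    rw [K3_v1]
    simp only [H2_0, H2_1, H2_2, H2_3]
    push_cast
    linear_combination eul (hp 1) - a0 + a2
  · show Matrix.vecMul (H2 p) K3 2 = _ * p 2
    have a0 := congrArg (pderiv 0) r3
    simp only [map_add, map_sub, map_neg, dX, Pi.zero_apply, map_zero] at a0
    simp only [Fin.reduceEq, if_true, if_false, add_zero] at a0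
    have a3 := congrArg (pderiv 3) r0
    simp only [map_add, map_sub, map_neg, dX, Pi.zero_apply, map_zero] at a3
    simp only [Fin.reduceEq, if_true, if_false, add_zero] at a3
    rw [K3_v2]
    simp only [H2_0, H2_1, H2_2, H2_3]
    push_cast
    linear_combination eul (hp 2) - a0 + a3
  · show Matrix.vecMul (H2 p) K3 3 = _ * p 3
    have a1 := congrArg (pderiv 1) r2
    simp only [map_add, map_sub, map_neg, dX, Pi.zero_apply, map_zero] at a1
    simp only [Fin.reduceEq, if_true, if_false, add_zero] at a1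
    have a2 := congrArg (pderiv 2) r1
    simp only [map_add, map_sub, map_neg, dX, Pi.zero_apply, map_zero] at a2
    simp only [Fin.reduceEq, if_true, if_false, add_zero] at a2
    rw [K3_v3]
    simp only [H2_0, H2_1, H2_2, H2_3]
    push_cast
    linear_combination eul (hp 3) - a1 + a2
  · show Matrix.vecMul (H2 p) K3 4 = _ * p 4
    have a1 := congrArg (pderiv 1) r3
    simp only [map_add, map_sub, map_neg, dX, Pi.zero_apply, map_zero] at a1
    simp only [Fin.reduceEq, if_true, if_false, add_zero] at a1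
    have a3 := congrArg (pderiv 3) r1
    simp only [map_add, map_sub, map_neg, dX, Pi.zero_apply, map_zero] at a3
    simp only [Fin.reduceEq, if_true, if_false, add_zero] at a3
    rw [K3_v4]
    simp only [H2_0, H2_1, H2_2, H2_3]
    push_cast
    linear_combination eul (hp 4) - a1 + a3
  · show Matrix.vecMul (H2 p) K3 5 = _ * p 5
    have a2 := congrArg (pderiv 2) r3
    simp only [map_add, map_sub, map_neg, dX, Pi.zero_apply, map_zero] at a2
    simp only [Fin.reduceEq, if_true, if_false, add_zero] at a2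
    have a3 := congrArg (pderiv 3) r2
    simp only [map_add, map_sub, map_neg, dX, Pi.zero_apply, map_zero] at a3
    simp only [Fin.reduceEq, if_true, if_false, add_zero] at a3
    rw [K3_v5]
    simp only [H2_0, H2_1, H2_2, H2_3]
    push_cast
    linear_combination eul (hp 5) - a2 + a3

lemma K3_K2 : K3 * K2 = 0 := by
  ext1 i j
  fin_cases i <;> fin_cases j <;> simp [K3, K2, Matrix.mul_apply, Fin.sum_univ_succ] <;> ring

def H3 (p : Fin 4 → P) : Fin 1 → P :=
  ![-pderiv 3 (p 0) + pderiv 2 (p 1) - pderiv 1 (p 2) + pderiv 0 (p 3)]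

lemma H3_0 (p : Fin 4 → P) : H3 p 0 = -pderiv 3 (p 0) + pderiv 2 (p 1) - pderiv 1 (p 2) + pderiv 0 (p 3) := rfl

lemma H3_hom (m : ℕ) (p : Fin 4 → P) (hp : ∀ k, (p k).IsHomogeneous (m + 1)) (k : Fin 1) :
    (H3 p k).IsHomogeneous m := by
  fin_cases k
  · exact ((((pdh (hp _) _).neg).add (pdh (hp _) _)).sub (pdh (hp _) _)).add (pdh (hp _) _)

lemma H3_zero (p : Fin 4 → P) (hp : ∀ k, (p k).IsHomogeneous 0) : H3 p = 0 := by
  funext k
  fin_cases k <;> simp [H3, pd0 (hp _)]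

lemma H3_eq (n : ℕ) (p : Fin 4 → P) (hp : ∀ k, (p k).IsHomogeneous n)
    (h0 : Matrix.vecMul p K3 = 0) (k : Fin 4) :
    Matrix.vecMul (H3 p) K4 k = ((n + 2 + 1 : ℕ) : P) * p k := by
  have r0 := (K3_v0 p).symm.trans (congrFun h0 0)
  have r1 := (K3_v1 p).symm.trans (congrFun h0 1)
  have r2 := (K3_v2 p).symm.trans (congrFun h0 2)
  have r3 := (K3_v3 p).symm.trans (congrFun h0 3)
  have r4 := (K3_v4 p).symm.trans (congrFun h0 4)
  have r5 := (K3_v5 p).symm.trans (congrFun h0 5)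
  fin_cases k
  · show Matrix.vecMul (H3 p) K4 0 = _ * p 0
    have a0 := congrArg (pderiv 0) r3
    simp only [map_add, map_sub, map_neg, dX, Pi.zero_apply, map_zero] at a0
    simp only [Fin.reduceEq, if_true, if_false, add_zero] at a0
    have a1 := congrArg (pderiv 1) r1
    simp only [map_add, map_sub, map_neg, dX, Pi.zero_apply, map_zero] at a1
    simp only [Fin.reduceEq, if_true, if_false, add_zero] at a1
    have a2 := congrArg (pderiv 2) r0
    simp only [map_add, map_sub, map_neg, dX, Pi.zero_apply, map_zero] at a2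
    simp only [Fin.reduceEq, if_true, if_false, add_zero] at a2
    rw [K4_v0]
    simp only [H3_0]
    push_cast
    linear_combination eul (hp 0) - a0 + a1 - a2
  · show Matrix.vecMul (H3 p) K4 1 = _ * p 1
    have a0 := congrArg (pderiv 0) r4
    simp only [map_add, map_sub, map_neg, dX, Pi.zero_apply, map_zero] at a0
    simp only [Fin.reduceEq, if_true, if_false, add_zero] at a0
    have a1 := congrArg (pderiv 1) r2
    simp only [map_add, map_sub, map_neg, dX, Pi.zero_apply, map_zero] at a1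
    simp only [Fin.reduceEq, if_true, if_false, add_zero] at a1
    have a3 := congrArg (pderiv 3) r0
    simp only [map_add, map_sub, map_neg, dX, Pi.zero_apply, map_zero] at a3
    simp only [Fin.reduceEq, if_true, if_false, add_zero] at a3
    rw [K4_v1]
    simp only [H3_0]
    push_cast
    linear_combination eul (hp 1) - a0 + a1 - a3
  · show Matrix.vecMul (H3 p) K4 2 = _ * p 2
    have a0 := congrArg (pderiv 0) r5
    simp only [map_add, map_sub, map_neg, dX, Pi.zero_apply, map_zero] at a0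
    simp only [Fin.reduceEq, if_true, if_false, add_zero] at a0
    have a2 := congrArg (pderiv 2) r2
    simp only [map_add, map_sub, map_neg, dX, Pi.zero_apply, map_zero] at a2
    simp only [Fin.reduceEq, if_true, if_false, add_zero] at a2
    have a3 := congrArg (pderiv 3) r1
    simp only [map_add, map_sub, map_neg, dX, Pi.zero_apply, map_zero] at a3
    simp only [Fin.reduceEq, if_true, if_false, add_zero] at a3
    rw [K4_v2]
    simp only [H3_0]
    push_cast
    linear_combination eul (hp 2) - a0 + a2 - a3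
  · show Matrix.vecMul (H3 p) K4 3 = _ * p 3
    have a1 := congrArg (pderiv 1) r5
    simp only [map_add, map_sub, map_neg, dX, Pi.zero_apply, map_zero] at a1
    simp only [Fin.reduceEq, if_true, if_false, add_zero] at a1
    have a2 := congrArg (pderiv 2) r4
    simp only [map_add, map_sub, map_neg, dX, Pi.zero_apply, map_zero] at a2
    simp only [Fin.reduceEq, if_true, if_false, add_zero] at a2
    have a3 := congrArg (pderiv 3) r3
    simp only [map_add, map_sub, map_neg, dX, Pi.zero_apply, map_zero] at a3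
    simp only [Fin.reduceEq, if_true, if_false, add_zero] at a3
    rw [K4_v3]
    simp only [H3_0]
    push_cast
    linear_combination eul (hp 3) - a1 + a2 - a3

lemma K4_K3 : K4 * K3 = 0 := by
  ext1 i j
  fin_cases i <;> fin_cases j <;> simp [K4, K3, Matrix.mul_apply, Fin.sum_univ_succ] <;> ring

theorem kosStmt : KosStmt := by
  refine ⟨K1, K2, K3, K4, K1_hom, K2_hom, K3_hom, K4_hom, fun m p hp => ?_,
    ex_of _ _ 0 H1 K2_K1 H1_zero H1_hom H1_eq, ex_of _ _ 1 H2 K3_K2 H2_zero H2_hom H2_eq,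
    ex_of _ _ 2 H3 K4_K3 H3_zero H3_hom H3_eq, fun p hp => ?_⟩
  · refine ⟨((m + 1 : ℕ) : ℂ)⁻¹ • H0 p,
      fun k => (homogeneousSubmodule _ _ m).smul_mem _ (H0_hom m p hp k), funext fun k => ?_⟩
    obtain rfl : k = 0 := Subsingleton.elim _ _
    have : Matrix.vecMul (H0 p) K1 0 = ((m + 1 : ℕ) : P) * p 0 := by
      rw [K1_v0, H0_0, H0_1, H0_2, H0_3]
      linear_combination eul (hp 0)
    rw [Matrix.smul_vecMul, Pi.smul_apply, this, ← nsmul_eq_mul, ← Nat.cast_smul_eq_nsmul ℂ,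
      smul_smul, inv_mul_cancel₀ (Nat.cast_ne_zero.2 (by omega)), one_smul]
  · have := (K4_v0 p).symm.trans (congrFun hp 0)
    funext k
    obtain rfl : k = 0 := Subsingleton.elim _ _
    simpa using this

end Crest.Agent.H5.Fd
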