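import Crest.Agent.H9.FdI

/-! Row 178: strict filtered free resolutions. -/

set_option autoImplicit false

noncomputable section
namespace Crest.Agent.H5.Fd
open Crest.Agent.H9.Fd

structure Sym (σ : ℕ → U →ₗ[ℂ] P) : Prop where
  hom : ∀ m u, (σ m u).IsHomogeneous m
  surj : ∀ m (p : P), p.IsHomogeneous m → ∃ u ∈ F m, σ m u = p
  ker : ∀ m, ∀ u ∈ F (m + 1), σ (m + 1) u = 0 ↔ u ∈ F m
  ker0 : ∀ u ∈ F 0, σ 0 u = 0 → u = 0
  mul : ∀ m, ∀ u ∈ F m, ∀ v ∈ F 1, σ (m + 1) (u * v) = σ m u * σ 1 v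

/-- all components lie in `F m` -/
def In {ι : Type} (m : ℕ) (v : ι → U) : Prop := ∀ i, v i ∈ F m

lemma mem_C_nat {ι : Type} (m : ℕ) (v : ι → U) : v ∈ C ι (m : ℤ) ↔ In m v := by
  simp [C, AddSubgroup.mem_pi, Fz_nat, In]

lemma mem_C_neg {ι : Type} {m : ℤ} (h : m < 0) (v : ι → U) : v ∈ C ι m ↔ v = 0 := by
  simp [C, AddSubgroup.mem_pi, Fz_neg h, funext_iff]

lemma In.sub {ι : Type} {m : ℕ} {v w : ι → U} (hv : In m v) (hw : In m w) : In m (v - w) :=
  fun i => sub_mem (hv i) (hw i)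
lemma In.add {ι : Type} {m : ℕ} {v w : ι → U} (hv : In m v) (hw : In m w) : In m (v + w) :=
  fun i => add_mem (hv i) (hw i)
lemma In.mono {ι : Type} {m n : ℕ} (h : m ≤ n) {v : ι → U} (hv : In m v) : In n v :=
  fun i => F_mono h (hv i)

variable {σ : ℕ → U →ₗ[ℂ] P}

/-- hypotheses of one step -/
structure St (σ : ℕ → U →ₗ[ℂ] P) {ι κ Y : Type} [Fintype κ] [AddCommGroup Y] [Module U Y]
    (g : (ι → U) →ₗ[U] Y) (D : Matrix κ ι P) : Prop where
  a : ∀ z, In 0 z → g z = 0 → z = 0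
  b : ∀ m z, In (m + 1) z → g z = 0 →
    ∃ q : κ → P, (∀ k, (q k).IsHomogeneous m) ∧ Matrix.vecMul q D = fun i => σ (m + 1) (z i)
  c : ∀ k, ∃ z, In 1 z ∧ g z = 0 ∧ ∀ i, σ 1 (z i) = D k i

/-- conclusion of one step -/
structure Co (σ : ℕ → U →ₗ[ℂ] P) {ι κ Y : Type} [Fintype κ] [AddCommGroup Y] [Module U Y]
    (g : (ι → U) →ₗ[U] Y) (D : Matrix κ ι P) (d : (κ → U) →ₗ[U] (ι → U)) : Prop where
  z0 : ∀ z, In 0 z → g z = 0 → z = 0
  gd : ∀ v, g (d v) = 0
  mem : ∀ m v, In m v → In (m + 1) (d v)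
  sym : ∀ m v, In m v → (fun i => σ (m + 1) (d v i)) = Matrix.vecMul (fun k => σ m (v k)) D
  onto : ∀ m z, In (m + 1) z → g z = 0 → ∃ v, In m v ∧ d v = z

section
variable {ι κ Y : Type} [Fintype κ] [AddCommGroup Y] [Module U Y]
  {g : (ι → U) →ₗ[U] Y} {D : Matrix κ ι P}

lemma lift_vec (hσ : Sym σ) {m : ℕ} (q : κ → P) (hq : ∀ k, (q k).IsHomogeneous m) :
    ∃ v : κ → U, In m v ∧ (fun k => σ m (v k)) = q := by
  choose v hv hv' using fun k => hσ.surj m (q k) (hq k)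
  exact ⟨v, hv, funext hv'⟩

theorem St.step (hσ : Sym σ) (h : St σ g D) : ∃ d : (κ → U) →ₗ[U] (ι → U), Co σ g D d := by
  choose z hz hz0 hzs using h.c
  let d : (κ → U) →ₗ[U] (ι → U) :=
    { toFun := fun v => ∑ k, v k • z k
      map_add' := fun v w => by simp [add_smul, Finset.sum_add_distrib]
      map_smul' := fun u v => by simp [Finset.smul_sum, mul_smul] }
  have hd : ∀ v i, d v i = ∑ k, v k * z k i := fun v i => by
    simp [d, Finset.sum_apply]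
  have gd : ∀ v, g (d v) = 0 := fun v => by
    simp [d, hz0]
  have mem : ∀ m v, In m v → In (m + 1) (d v) := fun m v hv i => by
    rw [hd]; exact Submodule.sum_mem _ fun k _ => F_mul (hv k) (hz k i)
  have sym : ∀ m v, In m v →
      (fun i => σ (m + 1) (d v i)) = Matrix.vecMul (fun k => σ m (v k)) D := fun m v hv => by
    funext i
    rw [hd, map_sum]
    simp only [Matrix.vecMul, dotProduct]
    exact Finset.sum_congr rfl fun k _ => by rw [hσ.mul m _ (hv k) _ (hz k i), hzs]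
  have key : ∀ m w, In (m + 1) w → g w = 0 → ∃ v, In m v ∧ In m (w - d v) := fun m w hw hw0 => by
    obtain ⟨q, hq, hq'⟩ := h.b m w hw hw0
    obtain ⟨v, hv, rfl⟩ := lift_vec hσ q hq
    refine ⟨v, hv, fun i => (hσ.ker m _ ((hw.sub (mem m v hv)) i)).1 ?_⟩
    have := congrFun (hq'.symm.trans (sym m v hv).symm) i
    rw [Pi.sub_apply, map_sub, this, sub_self]
  refine ⟨d, h.a, gd, mem, sym, fun m => ?_⟩
  induction m with
  | zero =>
    intro w hw hw0
    obtain ⟨v, hv, hv'⟩ := key 0 w hw hw0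
    exact ⟨v, hv, (sub_eq_zero.1 (h.a _ hv' (by rw [map_sub, hw0, gd, sub_zero]))).symm⟩
  | succ m ih =>
    intro w hw hw0
    obtain ⟨v, hv, hv'⟩ := key (m + 1) w hw hw0
    obtain ⟨v', h1, h2⟩ := ih _ hv' (by rw [map_sub, hw0, gd, sub_zero])
    exact ⟨v + v', hv.add (h1.mono (by omega)), by rw [map_add, h2]; abel⟩

variable {d : (κ → U) →ₗ[U] (ι → U)}

theorem Co.sex (h : Co σ g D d) (m : ℤ) : SEx d g (C κ (m - 1)) (C ι m) := by
  rcases lt_trichotomy m 0 with hm | rfl | hm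
  · refine ⟨fun x hx => ⟨?_, h.gd x⟩, fun y hy _ => ⟨0, zero_mem _, ?_⟩⟩
    · rw [(mem_C_neg (by omega) x).1 hx, map_zero]; exact zero_mem _
    · rw [(mem_C_neg hm y).1 hy, map_zero]
  · refine ⟨fun x hx => ⟨?_, h.gd x⟩, fun y hy hy0 => ⟨0, zero_mem _, ?_⟩⟩
    · rw [(mem_C_neg (by omega) x).1 hx, map_zero]; exact zero_mem _
    · rw [h.z0 y ((mem_C_nat 0 y).1 hy) hy0, map_zero]
  · obtain ⟨n, rfl⟩ : ∃ n : ℕ, m = ((n + 1 : ℕ) : ℤ) := ⟨(m - 1).toNat, by omega⟩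
    have e : ((n + 1 : ℕ) : ℤ) - 1 = (n : ℤ) := by omega
    rw [e]
    refine ⟨fun x hx => ⟨(mem_C_nat _ _).2 (h.mem n x ((mem_C_nat _ _).1 hx)), h.gd x⟩,
      fun y hy hy0 => ?_⟩
    obtain ⟨v, hv, hv'⟩ := h.onto n y ((mem_C_nat _ _).1 hy) hy0
    exact ⟨v, (mem_C_nat _ _).2 hv, hv'⟩

theorem Co.sym0 (h : Co σ g D d) (m : ℕ) (v : κ → U) (hv : In m v) (h0 : d v = 0) :
    Matrix.vecMul (fun k => σ m (v k)) D = 0 := by
  rw [← h.sym m v hv, h0]; funext i; simp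

theorem Co.next (hσ : Sym σ) (h : Co σ g D d) {κ' : Type} [Fintype κ'] {D' : Matrix κ' κ P}
    (hD : ∀ i j, (D' i j).IsHomogeneous 1) (hE : Ex D' D) : St σ d D' := by
  refine ⟨fun z hz hz0 => ?_, fun m z hz hz0 => ?_, fun k => ?_⟩
  · have := hE.2.1 _ (fun k => hσ.hom 0 (z k)) (h.sym0 0 z hz hz0)
    exact funext fun k => hσ.ker0 _ (hz k) (congrFun this k)
  · exact hE.2.2 m _ (fun k => hσ.hom _ (z k)) (h.sym0 _ z hz hz0)
  · obtain ⟨v, hv, hv'⟩ := lift_vec hσ (D' k) (hD k)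
    have h1 : In 1 (d v) := fun i => (hσ.ker 1 _ (h.mem 1 v hv i)).1 (by
      have := congrFun (h.sym 1 v hv) i
      rw [this, hv']
      exact congrFun (congrFun hE.1 k) i)
    obtain ⟨w, hw, hw'⟩ := h.onto 0 _ h1 (h.gd v)
    refine ⟨v - w, hv.sub (hw.mono (by omega)), by rw [map_sub, hw', sub_self], fun i => ?_⟩
    rw [Pi.sub_apply, map_sub, (hσ.ker 0 _ (F_mono (by omega) (hw i))).2 (hw i), sub_zero]
    exact congrFun hv' i

theorem Co.inj (hσ : Sym σ) (h : Co σ g D d) (hD : ∀ p : κ → P, Matrix.vecMul p D = 0 → p = 0)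
    (m : ℕ) : ∀ v, In m v → d v = 0 → v = 0 := by
  induction m with
  | zero =>
    intro v hv h0
    exact funext fun k => hσ.ker0 _ (hv k) (congrFun (hD _ (h.sym0 0 v hv h0)) k)
  | succ m ih =>
    intro v hv h0
    exact ih v (fun k => (hσ.ker m _ (hv k)).1 (congrFun (hD _ (h.sym0 _ v hv h0)) k)) h0
end

/-- block diagonal copy -/
def bl (n : ℕ) {κ ι : Type} (D : Matrix κ ι P) : Matrix (κ × Fin n) (ι × Fin n) P :=
  fun x y => if x.2 = y.2 then D x.1 y.1 else 0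

section
variable {n : ℕ} {κ' κ ι : Type} [Fintype κ'] [Fintype κ]

lemma vecMul_bl (D : Matrix κ ι P) (p : κ × Fin n → P) (i : ι) (b : Fin n) :
    Matrix.vecMul p (bl n D) (i, b) = Matrix.vecMul (fun k => p (k, b)) D i := by
  simp [Matrix.vecMul, dotProduct, bl, Fintype.sum_prod_type]

omit [Fintype κ] in
lemma bl_hom (D : Matrix κ ι P) (h : ∀ i j, (D i j).IsHomogeneous 1) (x : κ × Fin n)
    (y : ι × Fin n) : (bl n D x y).IsHomogeneous 1 := by
  unfold bl; split_ifs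
  · exact h _ _
  · exact MvPolynomial.isHomogeneous_zero _ _ _

lemma bl_lift (D : Matrix κ ι P) {m : ℕ} (p : ι × Fin n → P)
    (h : ∀ b, ∃ q : κ → P, (∀ k, (q k).IsHomogeneous m) ∧ Matrix.vecMul q D = fun i => p (i, b)) :
    ∃ q : κ × Fin n → P, (∀ k, (q k).IsHomogeneous m) ∧ Matrix.vecMul q (bl n D) = p := by
  choose q hq hq' using h
  refine ⟨fun x => q x.2 x.1, fun x => hq _ _, funext fun x => ?_⟩
  obtain ⟨i, b⟩ := x
  rw [vecMul_bl]
  exact congrFun (hq' b) i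

lemma bl_zero (D : Matrix κ ι P) (p : κ × Fin n → P) (h : Matrix.vecMul p (bl n D) = 0)
    (b : Fin n) : Matrix.vecMul (fun k => p (k, b)) D = 0 :=
  funext fun i => by rw [← vecMul_bl, h]; rfl

lemma bl_ex {D' : Matrix κ' κ P} {D : Matrix κ ι P} (h : Ex D' D) : Ex (bl n D') (bl n D) := by
  refine ⟨?_, fun p hp h0 => ?_, fun m p hp h0 => ?_⟩
  · ext1 ⟨k, a⟩ ⟨i, b⟩
    have e : (bl n D' * bl n D) (k, a) (i, b) = Matrix.vecMul (bl n D' (k, a)) (bl n D) (i, b) := rfl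
    rw [e, vecMul_bl]
    by_cases hab : a = b
    · subst hab
      have : (fun j => bl n D' (k, a) (j, a)) = D' k := funext fun j => by simp [bl]
      rw [this]
      exact congrFun (congrFun h.1 k) i
    · have : (fun j => bl n D' (k, a) (j, b)) = 0 := funext fun j => by simp [bl, hab]
      rw [this, Matrix.zero_vecMul]; rfl
  · funext x
    obtain ⟨k, b⟩ := x
    exact congrFun (h.2.1 _ (fun k => hp (k, b)) (bl_zero D p h0 b)) k
  · exact bl_lift D' p fun b => h.2.2 m _ (fun k => hp (k, b)) (bl_zero D p h0 b)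
end

lemma mem_F0 {u : U} : u ∈ F 0 ↔ ∃ c : ℂ, algebraMap ℂ U c = u := by
  unfold F; rw [pow_zero, Submodule.mem_one]

/-- a basis over the scalars -/
lemma exists_basis (N : Type) [AddCommGroup N] [Module U N] (h : FD N) :
    ∃ (n : ℕ) (b : Fin n → N), (∀ x, ∃ c : Fin n → ℂ, x = ∑ k, algebraMap ℂ U (c k) • b k) ∧
      ∀ c : Fin n → ℂ, ∑ k, algebraMap ℂ U (c k) • b k = 0 → c = 0 := by
  letI : Module ℂ N := Module.compHom N (algebraMap ℂ U)
  have hs : ∀ (c : ℂ) (x : N), c • x = algebraMap ℂ U c • x := fun _ _ => rfl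
  obtain ⟨ι, _, v, hv⟩ := h
  haveI : Module.Finite ℂ N := by
    refine Module.Finite.of_surjective (Fintype.linearCombination ℂ v) fun x => ?_
    obtain ⟨c, hc⟩ := hv x
    exact ⟨c, by rw [hc, Fintype.linearCombination_apply]; rfl⟩
  let b := Module.finBasis ℂ N
  refine ⟨_, b, fun x => ⟨fun k => b.repr x k, (b.sum_repr x).symm⟩, fun c hc => ?_⟩
  exact funext (Fintype.linearIndependent_iff.1 b.linearIndependent c hc)

theorem resStmt (hS : SymStmt) (hK : KosStmt) : ResStmt := by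
  classical
  obtain ⟨σ, s1, s2, s3, s4, s5⟩ := hS
  have hσ : Sym σ := ⟨s1, s2, s3, s4, s5⟩
  obtain ⟨D1, D2, D3, D4, h1, h2, h3, h4, e0, e1, e2, e3, e4⟩ := hK
  intro N _ _ hN
  obtain ⟨n, b, hb, hb0⟩ := exists_basis N hN
  let ε : (Fin 1 × Fin n → U) →ₗ[U] N :=
    { toFun := fun v => ∑ k, v (0, k) • b k
      map_add' := fun v w => by simp [add_smul, Finset.sum_add_distrib]
      map_smul' := fun u v => by simp [Finset.smul_sum, mul_smul] }
  have hε : ∀ v, ε v = ∑ k, v (0, k) • b k := fun _ => rfl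
  have sur : ∀ x, ∃ v, In 0 v ∧ ε v = x := fun x => by
    obtain ⟨c, hc⟩ := hb x
    exact ⟨fun y => algebraMap ℂ U (c y.2), fun y => mem_F0.2 ⟨_, rfl⟩, hc.symm⟩
  have st0 : St σ ε (bl n D1) := by
    refine ⟨fun z hz hz0 => ?_, fun m z hz _ => ?_, fun x => ?_⟩
    · choose c hc using fun y => mem_F0.1 (hz y)
      have := hb0 (fun k => c (0, k)) (by simpa only [hc] using (hε z).symm.trans hz0)
      funext y
      obtain ⟨i, k⟩ := y
      obtain rfl : i = 0 := Subsingleton.elim _ _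
      rw [← hc, congrFun this k]; simp
    · exact bl_lift D1 _ fun b => e0 m _ fun k => hσ.hom _ _
    · obtain ⟨v, hv, hv'⟩ := lift_vec hσ (bl n D1 x) (bl_hom D1 h1 x)
      obtain ⟨w, hw, hw'⟩ := sur (ε v)
      refine ⟨v - w, hv.sub (hw.mono (by omega)), by rw [map_sub, hw', sub_self], fun i => ?_⟩
      rw [Pi.sub_apply, map_sub, (hσ.ker 0 _ (F_mono (by omega) (hw i))).2 (hw i), sub_zero]
      exact congrFun hv' i
  obtain ⟨d1, c1⟩ := st0.step hσ
  obtain ⟨d2, c2⟩ := (c1.next hσ (bl_hom D2 h2) (bl_ex e1)).step hσ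
  obtain ⟨d3, c3⟩ := (c2.next hσ (bl_hom D3 h3) (bl_ex e2)).step hσ
  obtain ⟨d4, c4⟩ := (c3.next hσ (bl_hom D4 h4) (bl_ex e3)).step hσ
  refine ⟨_, _, _, _, _, inferInstance, inferInstance, inferInstance, inferInstance, inferInstance,
    ε, d1, d2, d3, d4, fun hn => ?_, fun m hm => ⟨fun x => ?_, c1.sex m, ?_, ?_, ?_, fun v hv h0 => ?_⟩⟩
  · rcases Nat.eq_zero_or_pos n with rfl | hpos
    · obtain ⟨x, hx⟩ := exists_ne (0 : N)
      obtain ⟨c, hc⟩ := hb x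
      exact absurd (by simpa using hc) hx
    · exact ⟨(0, ⟨0, hpos⟩)⟩
  · obtain ⟨v, hv, hv'⟩ := sur x
    lift m to ℕ using hm
    exact ⟨v, (mem_C_nat _ _).2 (hv.mono (by omega)), hv'⟩
  · have := c2.sex (m - 1)
    rwa [show m - 1 - 1 = m - 2 by ring] at this
  · have := c3.sex (m - 2)
    rwa [show m - 2 - 1 = m - 3 by ring] at this
  · have := c4.sex (m - 3)
    rwa [show m - 3 - 1 = m - 4 by ring] at this
  · by_cases h : m - 4 < 0
    · exact (mem_C_neg h v).1 hv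
    · obtain ⟨j, hj⟩ : ∃ j : ℕ, m - 4 = j := ⟨(m - 4).toNat, by omega⟩
      rw [hj] at hv
      refine c4.inj hσ (fun p hp => funext fun x => ?_) j v ((mem_C_nat _ _).1 hv) h0
      obtain ⟨k, a⟩ := x
      exact congrFun (e4 _ (bl_zero D4 p hp a)) k

end Crest.Agent.H5.Fd
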