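import Crest.Agent.H5.HcFlatA

/-! Row 121: flat partitions. -/

set_option autoImplicit false
set_option linter.unusedSectionVars false

universe u

namespace Crest.Agent.H5.Hc

open scoped InnerProductSpace ComplexConjugate
open Finset Function Crest.Agent.H5.KS Crest.Agent.H7.Batch Crest.Agent.H7 Crest.Agent.Lead.Hc

variable {H : Type*} [NormedAddCommGroup H] [InnerProductSpace ℂ H] [CompleteSpace H]
variable {M : VonNeumannAlgebra H} {z : H →L[ℂ] H} {k : ℕ} {ζ : Fin k → H}

section part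
variable {ι κ : Type} [Fintype ι] [Fintype κ] {p : ι → H →L[ℂ] H}

lemma part_mul (h : Part M z p) (i : ι) : p i * z = p i := by
  rw [← h.sum]; exact (proj_sum univ p (fun i _ => h.proj i) fun i _ j _ => h.orth i j).2 i (mem_univ _)

lemma part_proj (h : Part M z p) : IsStarProjection z := by
  rw [← h.sum]; exact (proj_sum univ p (fun i _ => h.proj i) fun i _ j _ => h.orth i j).1

lemma part_mul' (h : Part M z p) (i : ι) : z * p i = p i :=
  flip_mul (pstar (h.proj i)) (pstar (part_proj h)) (pstar (h.proj i)) (part_mul h i)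

lemma part_refine (h : Part M z p) {r : ι → κ → H →L[ℂ] H} (hr : ∀ i, Part M (p i) (r i)) :
    Part M z fun x : ι × κ => r x.1 x.2 := by
  refine ⟨fun x => (hr _).mem _, fun x => (hr _).proj _, fun x y hxy => ?_, ?_⟩
  · rcases eq_or_ne x.1 y.1 with e | e
    · obtain ⟨a, b⟩ := x
      obtain ⟨c, d⟩ := y
      obtain rfl : a = c := e
      exact (hr a).orth b d fun e => hxy (by rw [e])
    · rw [← part_mul (hr x.1), ← part_mul' (hr y.1), mul_assoc, ← mul_assoc (p x.1), h.orth _ _ e]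
      simp
  · rw [Fintype.sum_prod_type, ← h.sum]
    exact sum_congr rfl fun i _ => (hr i).sum

lemma part_reindex (h : Part M z p) (e : κ ≃ ι) : Part M z fun x => p (e x) :=
  ⟨fun _ => h.mem _, fun _ => h.proj _, fun _ _ hxy => h.orth _ _ (e.injective.ne hxy),
    by rw [Equiv.sum_comp e p, h.sum]⟩

lemma part_two {g b : H →L[ℂ] H} (gM : g ∈ M) (pg : IsStarProjection g) (bM : b ∈ M)
    (pb : IsStarProjection b) (gb : g * b = b) :
    Part M g fun s : Bool => if s then b else g - b := by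
  have bg : b * g = b := flip_mul (pstar pg) (pstar pb) (pstar pb) gb
  refine ⟨?_, ?_, ?_, by simp⟩
  · rintro (_ | _)
    · exact sub_mem gM bM
    · exact bM
  · rintro (_ | _)
    · exact pb.sub_of_mul_eq_left pg bg
    · exact pb
  · rintro (_ | _) (_ | _) h
    · exact absurd rfl h
    · simp [sub_mul, gb, pmul pb]
    · simp [mul_sub, bg, pmul pb]
    · exact absurd rfl h

lemma part_of_sys [DecidableEq κ] {w : κ → H →L[ℂ] H} {g : H →L[ℂ] H} (h : Sys M w g z) :
    Part M z fun i => w i * star (w i) :=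
  ⟨fun i => mul_mem (h.mem i) (star_mem (h.mem i)), fun i => (h.pi i).ran, fun i j hij => by
    rw [mul_assoc, ← mul_assoc (star _), h.orth, if_neg hij]; simp, h.sum⟩

end part

lemma noAb_sys {f : H →L[ℂ] H} (h : H9.VN.NoAb M f) (fM : f ∈ M) (pf : IsStarProjection f) (K : ℕ) :
    ∃ (g : H →L[ℂ] H) (w : Fin (2 ^ K) → H →L[ℂ] H), Sys M w g f := by
  obtain ⟨ι, _, _, e, w, hc, eM, pe, -, wM, -, h1, h2⟩ := H9.VN.units_aux M fM pf h K
  exact ⟨e, _, Sys.reindex (Fintype.equivFinOfCardEq hc).symm ⟨wM, eM, pe, h1, h2⟩⟩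

/-- Chebyshev cut -/
lemma cheb {p y : H →L[ℂ] H} (pM : p ∈ M) (yM : y ∈ M) (pp : IsStarProjection p) (y0 : 0 ≤ y)
    (py : p * y = y) {r : ℝ} (r0 : 0 ≤ r) : ∃ b ∈ M, IsStarProjection b ∧ p * b = b ∧
      (∀ ξ, r * ‖b ξ‖ ^ 2 ≤ (⟪ξ, y ξ⟫_ℂ).re) ∧
      ∀ ξ, (⟪(p - b) ξ, y ((p - b) ξ)⟫_ℂ).re ≤ r * ‖ξ‖ ^ 2 := by
  have ys := y0.isSelfAdjoint
  have yp : y * p = y := flip_mul (pstar pp) ys.star_eq ys.star_eq py
  have sa : IsSelfAdjoint (y - r • (1 : H →L[ℂ] H)) :=
    ys.sub ((IsSelfAdjoint.all r).smul (IsSelfAdjoint.one _))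
  obtain ⟨e, pe, e1, e2, -, e4, -⟩ := exists_split _ sa
  have cm : ∀ t : H →L[ℂ] H, t * y = y * t → t * (y - r • 1) = (y - r • 1) * t := fun t ht => by
    rw [mul_sub, sub_mul, ht]; simp
  have eM : e ∈ M := mem_of_comm fun t ht => e4 t (cm t (comm_of_mem yM ht))
    (cm _ (comm_of_mem yM (star_mem ht)))
  have c1 : p * e = e * p := e4 p (cm p (by rw [py, yp])) (cm _ (by rw [pstar pp, py, yp]))
  have c2 : y * e = e * y := e4 y (cm y rfl) (cm _ (by rw [ys.star_eq]))
  have pb : IsStarProjection (p * e) := pp.mul pe c1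
  refine ⟨p * e, mul_mem pM eM, pb, pmul' pp e, fun ξ => ?_, fun ξ => ?_⟩
  · have h1 := conj_nonneg' e1 pp (by
      rw [mul_assoc, ← c1, ← mul_assoc, ← cm p (by rw [py, yp]), mul_assoc])
    have h2 := conj_nonneg' y0 pe.one_sub (by rw [mul_sub, sub_mul, c2]; simp)
    have h3 : r • (p * e) ≤ y := by
      rw [← sub_nonneg]
      refine (add_nonneg h1 h2).trans (le_of_eq ?_)
      rw [mul_assoc, ← c1, sub_mul, ← mul_assoc, yp, mul_sub]
      simp
    have := re_inner_mono h3 ξ
    rwa [re_inner_rsmul, re_inner_proj pb] at this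
  · have h4 := re_inner_mono e2 ((p - p * e) ξ)
    have h5 : (1 - e) ((p - p * e) ξ) = (p - p * e) ξ := by
      rw [← mul_apply_eq_comp]
      congr 1
      rw [sub_mul, one_mul, mul_sub, ← mul_assoc, ← c1, mul_assoc, pmul pe]; simp
    rw [mul_apply_eq_comp, h5, re_inner_sub, re_inner_rsmul, one_apply_eq_self, re_inner_self] at h4
    simp only [_root_.zero_apply, inner_zero_right, Complex.zero_re] at h4
    have h6 := pow_le_pow_left₀ (norm_nonneg _) (proj_apply_le (pb.sub_of_mul_eq_left pp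
      (by rw [mul_assoc, ← c1, pmul' pp])) ξ) 2
    nlinarith

theorem flatStmt : FlatStmt.{u} := by
  intro H _ _ _ M z k ζ m π η hz hN hT hπ η0
  classical
  obtain ⟨K, hK⟩ := pow_unbounded_of_one_lt (4000 * m / η ^ 5 : ℝ) one_lt_two
  set n := 2 ^ K with hn
  have n0 : 0 < n := by positivity
  have n1 : (0 : ℝ) < n := by exact_mod_cast n0
  have hK' : 4000 * m / n ≤ η ^ 5 := by
    rw [div_le_iff₀ n1, mul_comm (η ^ 5), ← div_le_iff₀ (by positivity), hn]
    exact_mod_cast hK.le
  have hP := fun i => part_two hz.mem hz.proj (hπ i).1 (hπ i).2.1 (hπ i).2.2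
  choose r W hW using fun i s => noAb_sys (hN.mono (part_mul' (hP i) s)) ((hP i).mem s)
    ((hP i).proj s) K
  let q : Fin m → Bool × Fin n → H →L[ℂ] H := fun i x => W i x.1 x.2 * star (W i x.1 x.2)
  have hq : ∀ i, Part M z (q i) := fun i => part_refine (hP i) fun s => part_of_sys (hW i s)
  obtain ⟨g, v, hv⟩ := noAb_sys hN hz.mem hz.proj K
  obtain ⟨V, hV, hs⟩ := flat_core hz hT n0 hv (fun x : Fin m × Bool × Fin n => q x.1 x.2)
    (fun x => (hq _).mem _) (fun x => (hq _).proj _) (Nat.cast_nonneg m) (fun ξ => by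
      rw [Fintype.sum_prod_type]
      exact (sum_le_card_nsmul _ _ (‖ξ‖ ^ 2) fun i _ => sum_proj_normsq _ _
        (fun j _ => (hq i).proj j) (fun j _ l _ => (hq i).orth j l) ξ).trans (by simp))
    (fun x e he => by
      have := sys_piece (hW x.1 x.2.1) (hT.ct.cut he) x.2.2
      rw [Fintype.card_fin] at this
      exact this.trans (mul_le_mul_of_nonneg_left (sum_le_sum fun a _ =>
        pow_le_pow_left₀ (norm_nonneg _) (proj_apply_le ((hP _).proj _) _) 2) zero_le_two))
    (by simp [mul_comm])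
  have hE := part_of_sys hV
  set E : Fin n → H →L[ℂ] H := fun j => V j * star (V j) with hEd
  let y : Fin n → H →L[ℂ] H := fun j =>
    ∑ x : Fin m × Bool × Fin n, star (E j * q x.1 x.2 * E j) * (E j * q x.1 x.2 * E j)
  have hy : ∀ j ξ, (⟪ξ, y j ξ⟫_ℂ).re =
      ∑ x : Fin m × Bool × Fin n, ‖(E j * q x.1 x.2 * E j) ξ‖ ^ 2 := fun j ξ => by
    simpa only [star_star] using
      (sum_normsq_star univ (fun x : Fin m × Bool × Fin n => star (E j * q x.1 x.2 * E j)) ξ).symm
  choose b bM pb Eb h1 h2 using fun j => cheb (hE.mem j) (y := y j)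
    (sum_mem fun x _ => mul_mem (star_mem (mul_mem (mul_mem (hE.mem j) ((hq _).mem _)) (hE.mem j)))
      (mul_mem (mul_mem (hE.mem j) ((hq _).mem _)) (hE.mem j))) (hE.proj j)
    (sum_nonneg fun x _ => star_mul_self_nonneg _) (by
      simp only [y, mul_sum, star_mul, pstar (hE.proj j), mul_assoc, pmul' (hE.proj j)])
    (r := η ^ 4) (by positivity)
  have he := part_reindex (part_refine hE fun j => part_two (hE.mem j) (hE.proj j) (bM j) (pb j)
    (Eb j)) (Equiv.prodComm Bool (Fin n))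
  refine ⟨Bool × Fin n, inferInstance, inferInstance, q, _, univ.filter fun x => x.1 = true, hq,
    ?_, he, ?_, ?_⟩
  · rintro i ⟨_ | _, l⟩
    · right
      have h1 : (z - π i) * W i false l = W i false l := (hW i false).fw l
      have h2 : π i * (z - π i) = 0 := (hP i).orth true false (by simp)
      have h3 : π i * W i false l = 0 := by rw [← h1, ← mul_assoc, h2, zero_mul]
      simp only [q]
      rw [← mul_assoc, h3, zero_mul]
    · left
      have := (hW i true).fw l
      simp only [q]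
      rw [← mul_assoc]
      exact congrArg (· * _) this
  · rintro ⟨_ | _, j⟩ hj i l
    · have pg : IsStarProjection (E j - b j) := he.proj (false, j)
      change ‖(E j - b j) * q i l‖ ≤ η
      rw [← nstar, star_mul, pstar pg, pstar ((hq i).proj l)]
      refine opNorm_le_of_sq η0.le fun ξ => ?_
      set ξ' := (E j - b j) ξ with hξ
      have e1 : E j ξ' = ξ' := by rw [hξ, ← mul_apply_eq_comp, mul_sub, pmul (hE.proj j), Eb]
      have h3 := h2 j ξ
      rw [hy] at h3
      have h4 := (single_le_sum (f := fun x : Fin m × Bool × Fin n =>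
        ‖(E j * q x.1 x.2 * E j) ξ'‖ ^ 2) (fun _ _ => sq_nonneg _) (mem_univ (i, l))).trans h3
      have h5 : ‖(E j * q i l * E j) ξ'‖ ≤ η ^ 2 * ‖ξ‖ :=
        abs_le_of_sq_le_sq' (by rw [mul_pow, ← pow_mul]; exact h4) (by positivity) |>.2
      have h6 : ‖q i l ξ'‖ ^ 2 = (⟪ξ', (E j * q i l * E j) ξ'⟫_ℂ).re := by
        have pj : star (E j) = E j := pstar (hE.proj j)
        rw [← re_inner_proj ((hq i).proj l), mul_apply_eq_comp (E j * q i l), e1,
          mul_apply_eq_comp (E j), ← pj, inner_star_right, e1]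
      rw [mul_apply_eq_comp, h6]
      refine (Complex.re_le_norm _).trans ((norm_inner_le_norm _ _).trans ?_)
      have := mul_le_mul (proj_apply_le pg ξ) h5 (norm_nonneg _) (norm_nonneg _)
      linarith
    · simp at hj
  · rw [sum_filter, Fintype.sum_prod_type, Fintype.sum_bool]
    simp only [if_true, Bool.false_eq_true, if_false, sum_const_zero, add_zero]
    have e1 : ∀ a, ‖(∑ j, b j) (ζ a)‖ ^ 2 = ∑ j, ‖b j (ζ a)‖ ^ 2 := fun a => by
      rw [_root_.sum_apply]
      refine normsq_sum_orth _ _ fun i _ j _ hij => ?_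
      have : b i * b j = 0 := he.orth (true, i) (true, j) (by simpa using hij)
      rw [← inner_star_mul, pstar (pb i), this]; simp
    change ∑ a, ‖(∑ j, b j) (ζ a)‖ ^ 2 ≤ η
    simp only [e1]
    have e2 : ∀ j (x : Fin m × Bool × Fin n), ∑ a, ‖(E j * q x.1 x.2 * E j) (ζ a)‖ ^ 2 ≤
        2 * ∑ a, ‖(star (V j) * q x.1 x.2 * V j) (ζ a)‖ ^ 2 := fun j x => by
      have h3 := hT.ct _ (mul_mem (hV.mem j) (mul_mem (mul_mem (star_mem (hV.mem j))
        ((hq x.1).mem x.2)) (hV.mem j)))
      refine le_trans (sum_le_sum fun a _ => ?_) (h3.trans (mul_le_mul_of_nonneg_left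
        (sum_le_sum fun a _ => ?_) zero_le_two))
      · refine pow_le_pow_left₀ (norm_nonneg _) ?_ 2
        simp only [hEd, star_mul, star_star, pstar ((hq x.1).proj x.2), mul_apply_eq_comp]
        exact apply_le_of_le_one (hV.pi j).norm_le _
      · exact pow_le_pow_left₀ (norm_nonneg _) (apply_le_of_le_one (hV.pi j).norm_le _) 2
    have e3 : η ^ 4 * ∑ a, ∑ j, ‖b j (ζ a)‖ ^ 2 ≤ 2 * (2000 * m / n) := by
      refine le_trans ?_ (mul_le_mul_of_nonneg_left hs zero_le_two)
      rw [sum_comm, mul_sum, mul_sum]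
      refine sum_le_sum fun j _ => ?_
      rw [mul_sum, mul_sum]
      refine (sum_le_sum fun a _ => (h1 j _).trans (le_of_eq (hy j _))).trans ?_
      rw [sum_comm]
      exact sum_le_sum fun x _ => e2 j x
    refine le_of_mul_le_mul_left (e3.trans ?_) (show 0 < η ^ 4 by positivity)
    rw [← pow_succ, ← mul_div_assoc, ← mul_assoc]
    norm_num
    exact hK'

end Crest.Agent.H5.Hc
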