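import Crest.Agent.H5.HcMean

/-! Row 121: flat partitions, the probabilistic core. -/

set_option autoImplicit false
set_option linter.unusedSectionVars false

universe u

namespace Crest.Agent.H5.Hc

open scoped InnerProductSpace ComplexConjugate
open Finset Function Crest.Agent.H5.KS Crest.Agent.H7.Batch Crest.Agent.H7 Crest.Agent.Lead.Hc

variable {H : Type*} [NormedAddCommGroup H] [InnerProductSpace ℂ H] [CompleteSpace H]
variable {M : VonNeumannAlgebra H} {z : H →L[ℂ] H} {k : ℕ} {ζ : Fin k → H}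

section prob
variable {I Ω : Type*} [Fintype I] [DecidableEq I] [Fintype Ω] [Nonempty Ω]

lemma av_coord (a : I) (f : Ω → ℝ) : av (fun t : I → Ω => f (t a)) = av f := by
  rw [av_update a]; simp only [update_self, av_const]

lemma normsq_sub_le (a b : H) : ‖a - b‖ ^ 2 ≤ 2 * ‖a‖ ^ 2 + 2 * ‖b‖ ^ 2 := by
  simpa [sub_eq_add_neg] using normsq_add_le a (-b)

lemma av_re_inner_left (f : Ω → H) (y : H) :
    av (fun t => (⟪f t, y⟫_ℂ).re) = (⟪av f, y⟫_ℂ).re := by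
  simp only [av, smul_eq_mul, ← Complex.coe_smul, inner_smul_left, sum_inner, Complex.conj_ofReal,
    Complex.re_ofReal_mul, Complex.re_sum]

lemma av_indep_sum (X : I → Ω → H) : av (fun t : I → Ω => ‖∑ a, X a (t a)‖ ^ 2) ≤
    2 * ‖∑ a, av (X a)‖ ^ 2 + 8 * av fun t : I → Ω => ∑ a, ‖X a (t a)‖ ^ 2 := by
  have h1 : ∀ t : I → Ω, ‖∑ a, X a (t a)‖ ^ 2 ≤
      2 * ‖∑ a, av (X a)‖ ^ 2 + 2 * ‖∑ a, (X a (t a) - av (X a))‖ ^ 2 := fun t => by
    have := normsq_add_le (∑ a, av (X a)) (∑ a, (X a (t a) - av (X a)))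
    rwa [sum_sub_distrib, add_sub_cancel, ← sum_sub_distrib] at this
  refine (av_mono h1).trans ?_
  rw [av_add, av_const, av_mul_left, av_normsq_sum_orth univ
    (fun a (t : I → Ω) => X a (t a) - av (X a)) fun a _ b _ hab => ?_, av_sum]
  · have : ∀ a, av (fun t : I → Ω => ‖X a (t a) - av (X a)‖ ^ 2) ≤
        4 * av (fun t : I → Ω => ‖X a (t a)‖ ^ 2) := fun a => by
      refine (av_mono fun t => normsq_sub_le _ _).trans ?_
      rw [av_add, av_const, av_mul_left, av_coord a fun t => ‖X a t‖ ^ 2]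
      have := normsq_av_le (X a)
      linarith
    have := sum_le_sum fun a (_ : a ∈ univ) => this a
    rw [← mul_sum] at this
    linarith
  · rw [av_update a]
    simp only [update_self, update_of_ne hab.symm, av_re_inner_left, av_sub, av_const, sub_self,
      inner_zero_left, Complex.zero_re]

lemma sum_split {V : Type*} [AddCommMonoid V] (F : I → I → V) :
    ∑ a, ∑ b, F a b = ∑ a, F a a + ∑ p ∈ (univ : Finset I).offDiag, F p.1 p.2 := by
  rw [← sum_product', ← diag_union_offDiag, sum_union (disjoint_diag_offDiag _), sum_diag]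

lemma av_phase {J : ℝ} (c : I → ℂ) (hc : ∀ a, c a * conj (c a) = (J : ℂ)⁻¹) (Z : I → I → H) :
    av (fun θ : I → Fin 3 =>
      ‖∑ a, ∑ b, (conj (c a * Kad.ph θ a) * (c b * Kad.ph θ b)) • Z a b‖ ^ 2) ≤
      J⁻¹ ^ 2 * (2 * ‖∑ a, Z a a‖ ^ 2 + 2 * ∑ a, ∑ b, ‖Z a b‖ ^ 2) := by
  have n1 : ∀ a, ‖c a‖ ^ 2 = J⁻¹ := fun a => by
    have := hc a
    rw [Complex.mul_conj'] at this
    exact_mod_cast this
  have e : ∀ θ : I → Fin 3, ∑ a, ∑ b, (conj (c a * Kad.ph θ a) * (c b * Kad.ph θ b)) • Z a b =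
      (J⁻¹ : ℝ) • ∑ a, Z a a + ∑ p ∈ (univ : Finset I).offDiag,
        (conj (Kad.ph θ p.1) * Kad.ph θ p.2) • ((conj (c p.1) * c p.2) • Z p.1 p.2) := fun θ => by
    rw [sum_split, smul_sum]
    congr 1
    · refine sum_congr rfl fun a _ => ?_
      rw [← Complex.coe_smul, Complex.ofReal_inv, ← hc a, map_mul]
      congr 1
      linear_combination (c a * conj (c a)) * Kad.conj_ph_mul θ a
    · refine sum_congr rfl fun a _ => ?_
      rw [smul_smul, map_mul]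
      congr 1; ring
  simp only [e]
  refine (av_mono fun θ => normsq_add_le _ _).trans ?_
  have h := Kad.av_normSq_orth (univ : Finset I).offDiag
    (fun p (θ : I → Fin 3) => conj (Kad.ph θ p.1) * Kad.ph θ p.2)
    (fun p hp p' _ => Kad.orth_pair le_rfl (mem_offDiag.1 hp).2.2)
    (fun p => (conj (c p.1) * c p.2) • Z p.1 p.2)
  change av _ = _ at h
  rw [av_add, av_const, av_mul_left, h, norm_smul, mul_pow, Real.norm_eq_abs, sq_abs]
  have h2 : ∑ p ∈ (univ : Finset I).offDiag, ‖(conj (c p.1) * c p.2) • Z p.1 p.2‖ ^ 2 ≤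
      J⁻¹ ^ 2 * ∑ a, ∑ b, ‖Z a b‖ ^ 2 := by
    simp only [norm_smul, norm_mul, mul_pow, Complex.norm_conj, n1, ← sq, ← mul_sum]
    rw [sum_split]
    exact mul_le_mul_of_nonneg_left (le_add_of_nonneg_left (by positivity)) (sq_nonneg _)
  linarith

lemma av_both {J : ℝ} (c : I → ℂ) (hc : ∀ a, c a * conj (c a) = (J : ℂ)⁻¹)
    (Z : (I → Ω) → I → I → H) (X : I → Ω → H) (hX : ∀ t a, Z t a a = X a (t a)) :
    av (fun ω : (I → Ω) × (I → Fin 3) =>
      ‖∑ a, ∑ b, (conj (c a * Kad.ph ω.2 a) * (c b * Kad.ph ω.2 b)) • Z ω.1 a b‖ ^ 2) ≤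
      J⁻¹ ^ 2 * (4 * ‖∑ a, av (X a)‖ ^ 2 + 18 * av fun t => ∑ a, ∑ b, ‖Z t a b‖ ^ 2) := by
  rw [av_prod (fun (t : I → Ω) (θ : I → Fin 3) =>
    ‖∑ a, ∑ b, (conj (c a * Kad.ph θ a) * (c b * Kad.ph θ b)) • Z t a b‖ ^ 2)]
  refine (av_mono fun t => av_phase c hc (Z t)).trans ?_
  rw [av_mul_left, av_add, av_mul_left, av_mul_left]
  refine mul_le_mul_of_nonneg_left ?_ (sq_nonneg _)
  simp only [hX]
  have h1 := av_indep_sum X
  have h2 : (av fun t : I → Ω => ∑ a, ‖X a (t a)‖ ^ 2) ≤ av fun t => ∑ a, ∑ b, ‖Z t a b‖ ^ 2 :=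
    av_mono fun t => sum_le_sum fun a _ => by
      rw [← hX]; exact single_le_sum (f := fun b => ‖Z t a b‖ ^ 2) (fun _ _ => sq_nonneg _) (mem_univ a)
  linarith

end prob

section sys
variable {κ : Type*} [Fintype κ] [DecidableEq κ] {v : κ → H →L[ℂ] H} {g f : H →L[ℂ] H}

lemma sys_row (h : Sys M v g f) (η : H) : ∑ a, ‖star (v a) η‖ ^ 2 = ‖f η‖ ^ 2 := by
  rw [sum_normsq_star, h.sum, re_inner_proj h.fproj]

lemma sys_row_le (h : Sys M v g f) (η : H) : ∑ a, ‖star (v a) η‖ ^ 2 ≤ ‖η‖ ^ 2 := by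
  rw [sys_row h]; exact pow_le_pow_left₀ (norm_nonneg _) (proj_apply_le h.fproj η) 2

lemma sys_col (h : Sys M v g f) (a : κ) (η : H) : ‖v a η‖ ^ 2 = ‖g η‖ ^ 2 :=
  normsq_congr (by rw [h.dom, pstar h.proj, pmul h.proj]) _

lemma sys_big (h : Sys M v g f) (hζ : CT M ζ) :
    ∑ a, ‖f (ζ a)‖ ^ 2 ≤ 2 * Fintype.card κ * ∑ a, ‖g (ζ a)‖ ^ 2 := by
  simp only [← sys_row h]
  rw [sum_comm]
  refine (sum_le_card_nsmul _ _ (2 * ∑ a, ‖g (ζ a)‖ ^ 2) fun s _ => ?_).trans (by simp; linarith)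
  simpa only [sys_col h] using hζ _ (h.mem s)

lemma sys_small (h : Sys M v g f) (hζ : CT M ζ) :
    Fintype.card κ * ∑ a, ‖g (ζ a)‖ ^ 2 ≤ 2 * ∑ a, ‖f (ζ a)‖ ^ 2 := by
  simp only [← sys_row h]
  rw [sum_comm (f := fun a i => ‖star (v i) (ζ a)‖ ^ 2), mul_sum (a := (2 : ℝ)), ← nsmul_eq_mul,
    ← card_univ]
  refine card_nsmul_le_sum _ _ _ fun s _ => ?_
  simpa only [star_star, sys_col h] using hζ _ (star_mem (h.mem s))

lemma sys_piece (h : Sys M v g f) (hζ : CT M ζ) (l : κ) :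
    Fintype.card κ * ∑ a, ‖(v l * star (v l)) (ζ a)‖ ^ 2 ≤ 2 * ∑ a, ‖f (ζ a)‖ ^ 2 := by
  simp only [← sys_row h]
  rw [sum_comm (f := fun a i => ‖star (v i) (ζ a)‖ ^ 2), mul_sum (a := (2 : ℝ)), ← nsmul_eq_mul,
    ← card_univ]
  refine card_nsmul_le_sum _ _ _ fun s _ => ?_
  have := hζ _ (mul_mem (h.mem l) (star_mem (h.mem s)))
  simp only [star_mul, star_star, mul_apply_eq_comp, sys_col h] at this ⊢
  simpa only [← mul_apply_eq_comp, h.qw] using this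

lemma sys_mulCU (h : Sys M v g f) {w : κ → H →L[ℂ] H} (hw : ∀ a, CU M g (w a)) :
    Sys M (fun a => v a * w a) g f := by
  refine ⟨fun a => mul_mem (h.mem a) (hw a).1, h.qmem, h.proj, fun a b => ?_, ?_⟩
  · rw [star_mul, mul_assoc, ← mul_assoc (star (v a)), h.orth]
    split_ifs with e
    · subst e; rw [(hw a).g_mul h.proj, (hw a).2.1]
    · simp
  · rw [← h.sum]
    refine sum_congr rfl fun a _ => ?_
    rw [star_mul, mul_assoc, ← mul_assoc (w a), (hw a).2.2, h.qw]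

lemma CU_smul {w : H →L[ℂ] H} (hw : CU M g w) {φ : ℂ} (h : conj φ * φ = 1) : CU M g (φ • w) :=
  ⟨vsmul_mem _ hw.1, by simp [smul_smul, hw.2.1, mul_comm φ, h],
    by simp [smul_smul, hw.2.2, h]⟩

lemma sys_four {w : κ → H →L[ℂ] H} (h : Sys M w g f) {c : κ → κ → ℂ} (c2 : ∀ a i, c a i = c i a)
    (c3 : ∀ a a', ∑ i, conj (c a i) * c a' i = if a = a' then 1 else 0) :
    Sys M (fun a => ∑ i, c a i • w i) g f := by
  let w' : κ → H →L[ℂ] H := fun a => ∑ i, c a i • w i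
  have e1 : ∀ i a, star (w i) * w' a = c a i • g := fun i a => by
    simp only [w', mul_sum, mul_smul_comm, h.orth, smul_ite, smul_zero, sum_ite_eq, mem_univ, if_true]
  have e1' : ∀ i a, star (w' a) * w i = conj (c a i) • g := fun i a => by
    have := congrArg star (e1 i a)
    simpa [pstar h.proj] using this
  have e2 : ∀ a a', w' a * star (w' a') = ∑ i, ∑ j, (c a i * conj (c a' j)) • (w i * star (w j)) :=
    fun a a' => by
      simp only [w']
      rw [sstar, sum_mul]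
      refine sum_congr rfl fun i _ => ?_
      rw [mul_sum]
      exact sum_congr rfl fun j _ => by simp [smul_smul, mul_comm]
  change Sys M w' g f
  refine ⟨fun a => sum_mem fun i _ => vsmul_mem _ (h.mem i), h.qmem, h.proj, fun a a' => ?_, ?_⟩
  · conv_lhs => rhs; simp only [w']
    simp only [mul_sum, mul_smul_comm, e1', smul_smul]
    rw [← sum_smul, sum_congr rfl fun i _ => mul_comm (c a' i) _, c3]
    split_ifs <;> simp
  · simp only [e2]
    rw [sum_comm, ← h.sum]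
    refine sum_congr rfl fun i _ => ?_
    rw [sum_comm]
    simp only [← sum_smul]
    have : ∀ j, ∑ a, c a i * conj (c a j) = if j = i then 1 else 0 := fun j => by
      rw [← c3 j i]; exact sum_congr rfl fun a _ => by rw [c2 a i, c2 a j, mul_comm]
    simp [this]

end sys

theorem flat_core (hz : Cen M z) (hT : Tr M z ζ) {n : ℕ} (n0 : 0 < n) {v : Fin n → H →L[ℂ] H}
    {g : H →L[ℂ] H} (hv : Sys M v g z) {Q : Type*} [Fintype Q] (q : Q → H →L[ℂ] H)
    (qM : ∀ x, q x ∈ M) (pq : ∀ x, IsStarProjection (q x)) {m : ℝ} (m0 : 0 ≤ m)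
    (hA : ∀ ξ, ∑ x, ‖q x ξ‖ ^ 2 ≤ m * ‖ξ‖ ^ 2)
    (hB : ∀ x e, Cen M e → n * ∑ a, ‖q x (e (ζ a))‖ ^ 2 ≤ 2 * ∑ a, ‖e (ζ a)‖ ^ 2)
    (hQ : (Fintype.card Q : ℝ) ≤ 2 * n * m) :
    ∃ V : Fin n → H →L[ℂ] H, Sys M V g z ∧
      ∑ j, ∑ x, ∑ a, ‖(star (V j) * q x * V j) (ζ a)‖ ^ 2 ≤ 2000 * m / n := by
  classical
  have n1 : (0 : ℝ) < n := by exact_mod_cast n0
  have pg := hv.proj
  have gz : g * z = g := by
    rw [← hv.dom ⟨0, n0⟩, mul_assoc, ← hz.comm _ (hv.mem _), hv.fw]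
  let Y : Q → H →L[ℂ] H := fun x => ∑ a, star (q x * v a) * (q x * v a)
  have Y0 : ∀ x, 0 ≤ Y x := fun x => sum_nonneg fun i _ => star_mul_self_nonneg _
  have yM : ∀ x a, q x * v a ∈ M := fun x a => mul_mem (qM x) (hv.mem a)
  obtain ⟨Ω, _, _, w, hw, hS⟩ := dix hv.qmem pg (univ.image Y) (fun a ha => by
    obtain ⟨x, -, rfl⟩ := mem_image.1 ha
    exact ⟨sum_mem fun a _ => mul_mem (star_mem (yM x a)) (yM x a), (Y0 x).isSelfAdjoint⟩) one_pos
  have hD : ∀ x, ‖TT w (Y x)‖ ≤ 11 := fun x => by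
    obtain ⟨c, hc, hn⟩ := hS (Y x) (mem_image_of_mem _ (mem_univ x))
    refine (lemD hz hT hv.qmem pg gz (TT_nonneg w (Y0 x)) (TT_g_mul hw pg _) hc one_pos
      (K := 8) (by norm_num) hn fun e he => (TT_trace pg hw (hT.ct.cut he) _ (yM x)).trans ?_).trans
      (by norm_num)
    have h1 : ∑ a, ∑ i, ‖star (q x * v i) (e (ζ a))‖ ^ 2 ≤ ∑ a, ‖q x (e (ζ a))‖ ^ 2 :=
      sum_le_sum fun a _ => by
        simp only [star_mul, mul_apply_eq_comp, pstar (pq x)]; exact sys_row_le hv _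
    have h2 := hB x e he
    have h3 := sys_big hv (hT.ct.cut he)
    have h4 : ∀ a, z (e (ζ a)) = e (ζ a) := fun a => by
      rw [← mul_apply_eq_comp z, hz.comm e he.mem, mul_apply_eq_comp, hT.cut]
    simp only [h4, Fintype.card_fin] at h3
    have : n * (2 * ∑ a, ‖q x (e (ζ a))‖ ^ 2) ≤ n * (8 * ∑ a, ‖g (e (ζ a))‖ ^ 2) := by linarith
    have := le_of_mul_le_mul_left this n1
    linarith
  obtain ⟨c, c1, c2, c3⟩ := exists_fourier n n0
  let u : (Fin n → Ω) → Fin n → H →L[ℂ] H := fun t a => v a * w (t a)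
  have hu : ∀ t, Sys M (u t) g z := fun t => sys_mulCU hv fun a => hw _
  let V : (Fin n → Ω) × (Fin n → Fin 3) → Fin n → H →L[ℂ] H := fun ω j =>
    ∑ a, c j a • (v a * (Kad.ph ω.2 a • w (ω.1 a)))
  have hV : ∀ ω, Sys M (V ω) g z := fun ω =>
    sys_four (sys_mulCU hv fun a => CU_smul (hw _) (Kad.conj_ph_mul _ _)) c2 c3
  let Z : Q → Fin k → (Fin n → Ω) → Fin n → Fin n → H := fun x i t a b =>
    star (u t a) (q x (u t b (ζ i)))
  have e1 : ∀ ω j x i, (star (V ω j) * q x * V ω j) (ζ i) =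
      ∑ a, ∑ b, (conj (c j a * Kad.ph ω.2 a) * (c j b * Kad.ph ω.2 b)) • Z x i ω.1 a b := by
    intro ω j x i
    simp only [V, Z, u, sstar, mul_apply_eq_comp, _root_.sum_apply, map_sum, mul_smul_comm,
      smul_smul, star_smul, _root_.smul_apply, map_smul, smul_sum, RCLike.star_def]
    rw [sum_comm]
    exact sum_congr rfl fun a _ => sum_congr rfl fun b _ => by rw [mul_comm]
  have e2 : ∀ j x i, av (fun ω => ‖(star (V ω j) * q x * V ω j) (ζ i)‖ ^ 2) ≤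
      (n : ℝ)⁻¹ ^ 2 * (484 * ‖g (ζ i)‖ ^ 2 + 18 * av fun t => ∑ a, ∑ b, ‖Z x i t a b‖ ^ 2) := by
    intro j x i
    simp only [e1]
    refine (av_both (J := n) (c j) (c1 j) (Z x i)
      (fun a t => (star (w t) * (star (q x * v a) * (q x * v a)) * w t) (ζ i)) fun t a => ?_).trans ?_
    · simp only [Z, u, star_mul, mul_apply_eq_comp, pstar (pq x)]
      rw [← mul_apply_eq_comp (q x) (q x), pmul (pq x)]
    · have : ∑ a, av (fun t => (star (w t) * (star (q x * v a) * (q x * v a)) * w t) (ζ i)) =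
          TT w (Y x) (g (ζ i)) := by
        rw [TT_eq, av_apply, ← av_sum]
        congr 1
        ext1 t
        rw [← mul_apply_eq_comp, mul_assoc, (hw t).mul_g pg]
        simp only [Y, mul_sum, sum_mul, _root_.sum_apply]
      rw [this]
      have h1 := sq_apply_le (TT w (Y x)) (g (ζ i))
      have h2 := pow_le_pow_left₀ (norm_nonneg _) (hD x) 2
      have h3 := mul_le_mul_of_nonneg_right h2 (sq_nonneg ‖g (ζ i)‖)
      refine mul_le_mul_of_nonneg_left ?_ (sq_nonneg _)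
      linarith
  have e3 : ∀ i t, ∑ x, ∑ a, ∑ b, ‖Z x i t a b‖ ^ 2 ≤ n * m * ‖g (ζ i)‖ ^ 2 := fun i t => by
    have h1 : ∀ x, ∑ a, ∑ b, ‖Z x i t a b‖ ^ 2 ≤ ∑ b, ‖q x (u t b (ζ i))‖ ^ 2 := fun x => by
      rw [sum_comm]; exact sum_le_sum fun b _ => sys_row_le (hu t) _
    refine (sum_le_sum fun x _ => h1 x).trans ?_
    rw [sum_comm]
    refine (sum_le_card_nsmul _ _ (m * ‖g (ζ i)‖ ^ 2) fun b _ => ?_).trans (by simp [mul_assoc])
    rw [← sys_col (hu t) b]; exact hA _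
  obtain ⟨ω, hω⟩ := Kad.exists_le_av
    fun ω => ∑ j, ∑ x, ∑ a, ‖(star (V ω j) * q x * V ω j) (ζ a)‖ ^ 2
  refine ⟨V ω, hV ω, hω.trans ?_⟩
  change av _ ≤ _
  have e4 : ∀ j, ∑ x, ∑ i, av (fun ω => ‖(star (V ω j) * q x * V ω j) (ζ i)‖ ^ 2) ≤
      (n : ℝ)⁻¹ ^ 2 * (986 * n * m * ∑ i, ‖g (ζ i)‖ ^ 2) := fun j => by
    refine (sum_le_sum fun x _ => sum_le_sum fun i _ => e2 j x i).trans ?_
    rw [sum_comm]
    simp only [← mul_sum]
    refine mul_le_mul_of_nonneg_left ?_ (sq_nonneg _)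
    rw [mul_sum]
    refine sum_le_sum fun i _ => ?_
    rw [sum_add_distrib, ← mul_sum, ← mul_sum, ← av_sum, sum_const, card_univ, nsmul_eq_mul]
    have h1 := av_le (e3 i)
    have h2 := mul_le_mul_of_nonneg_right hQ (sq_nonneg ‖g (ζ i)‖)
    linarith
  simp only [av_sum]
  refine (sum_le_card_nsmul _ _ _ fun j _ => e4 j).trans ?_
  have h1 := sys_small hv hT.ct
  simp only [hT.cut, Fintype.card_fin] at h1
  have h2 := hT.norm
  have h3 : m * (n * ∑ i, ‖g (ζ i)‖ ^ 2) ≤ m * 2 := mul_le_mul_of_nonneg_left (by linarith) m0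
  rw [card_univ, Fintype.card_fin, nsmul_eq_mul, le_div_iff₀ n1]
  have : n * ((n : ℝ)⁻¹ ^ 2 * (986 * n * m * ∑ i, ‖g (ζ i)‖ ^ 2)) * n =
      986 * (m * (n * ∑ i, ‖g (ζ i)‖ ^ 2)) := by field_simp
  rw [this]
  linarith

end Crest.Agent.H5.Hc
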