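import Crest.Agent.H3.IMFld

/-! Row 326, the transform: definitions of the exact operators. -/

set_option autoImplicit false

namespace Crest.Agent.H5.IM
open Crest.Agent.H9.IM Finset

abbrev EE := Module.End ℂ (ℕ → ℂ)

/-- two-term pass -/
def l2 (m : ℕ) (α β : ℕ → ℂ) : EE where
  toFun a := fun i => α i * a i + β i * a (i ^^^ m)
  map_add' a b := by funext i; simp only [Pi.add_apply]; ring
  map_smul' c a := by funext i; simp only [Pi.smul_apply, smul_eq_mul, RingHom.id_apply]; ring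

/-- diagonal pass -/
def dgo (α : ℕ → ℂ) : EE where
  toFun a := fun i => α i * a i
  map_add' a b := by funext i; simp only [Pi.add_apply]; ring
  map_smul' c a := by funext i; simp only [Pi.smul_apply, smul_eq_mul, RingHom.id_apply]; ring

/-- butterfly -/
def hd (m : ℕ) : EE where
  toFun a := had m a
  map_add' a b := by funext i; simp only [had, Pi.add_apply]; split_ifs <;> ring
  map_smul' c a := by
    funext i; simp only [had, Pi.smul_apply, smul_eq_mul, RingHom.id_apply]; split_ifs <;> ring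

theorem l2_apply (m : ℕ) (α β a : ℕ → ℂ) (i : ℕ) :
    l2 m α β a i = α i * a i + β i * a (i ^^^ m) := rfl
theorem dgo_apply (α a : ℕ → ℂ) (i : ℕ) : dgo α a i = α i * a i := rfl
theorem hd_apply (m : ℕ) (a : ℕ → ℂ) : hd m a = had m a := rfl

/-- `E 0 * E 1 * ⋯ * E (n-1)` -/
noncomputable def par (n : ℕ) (E : ℕ → EE) : EE := ((List.range n).map E).prod
/-- `E (n-1) * ⋯ * E 0` -/
noncomputable def rap (n : ℕ) (E : ℕ → EE) : EE := ((List.range n).map E).reverse.prod

theorem par_zero (E : ℕ → EE) : par 0 E = 1 := rfl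
theorem rap_zero (E : ℕ → EE) : rap 0 E = 1 := rfl
theorem par_succ (n : ℕ) (E : ℕ → EE) : par (n + 1) E = par n E * E n := by
  simp [par, List.range_succ]
theorem rap_succ (n : ℕ) (E : ℕ → EE) : rap (n + 1) E = E n * rap n E := by
  simp [rap, List.range_succ]
theorem rap_succ' (n : ℕ) (E : ℕ → EE) : rap (n + 1) E = rap n (fun j => E (j + 1)) * E 0 := by
  simp [rap, List.range_succ_eq_map, Function.comp_def]

theorem par_congr {n : ℕ} {E F : ℕ → EE} (h : ∀ j < n, E j = F j) : par n E = par n F := by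
  unfold par; rw [List.map_congr_left (fun j hj => h j (List.mem_range.1 hj))]
theorem rap_congr {n : ℕ} {E F : ℕ → EE} (h : ∀ j < n, E j = F j) : rap n E = rap n F := by
  unfold rap; rw [List.map_congr_left (fun j hj => h j (List.mem_range.1 hj))]

theorem par_eq_rap_rev (n : ℕ) (E : ℕ → EE) : par n E = rap n (fun j => E (n - 1 - j)) := by
  induction n with
  | zero => rfl
  | succ n ih =>
    rw [par_succ, rap_succ', ih]
    congr 1
    exact rap_congr (fun j hj => by congr 1; omega)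

theorem rap_apply (n : ℕ) (E : ℕ → EE) (a : ℕ → ℂ) :
    rap n E a = (List.range n).foldl (fun a j => E j a) a := by
  induction n with
  | zero => rfl
  | succ n ih => rw [rap_succ, List.range_succ, List.foldl_append, ← ih]; rfl

theorem par_apply (n : ℕ) (E : ℕ → EE) (a : ℕ → ℂ) :
    par n E a = (List.range n).foldr (fun j a => E j a) a := by
  induction n generalizing a with
  | zero => rfl
  | succ n ih => rw [par_succ, List.range_succ, List.foldr_append, ← ih]; rfl

/-- numerator of the twiddle angle of layer `p` of the field starting at `lo` -/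
def tw (lo p i : ℕ) : ℕ := fld (lo * 2 ^ p) 2 i * fld lo (2 ^ p) i

noncomputable def fl (lo p : ℕ) : EE :=
  dgo (fun i => ee ((tw lo p i : ℝ) / 2 ^ (p + 1))) * hd (lo * 2 ^ p)
noncomputable def il (lo p : ℕ) : EE :=
  hd (lo * 2 ^ p) * dgo (fun i => ee (-(tw lo p i : ℝ) / 2 ^ (p + 1)) / 2)
noncomputable def fft (lo n : ℕ) : EE := par n (fl lo)
noncomputable def ifft (lo n : ℕ) : EE := rap n (il lo)

/-- bit reversal -/
def rv (n x : ℕ) : ℕ := ∑ k ∈ range n, x / 2 ^ k % 2 * 2 ^ (n - 1 - k)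

def tB (q : TQ) : ℕ := q.1.size - 1
def ts (q : TQ) : ℕ := q.2.1.size - 1
def bb (q : TQ) (j : ℕ) : ℕ := q.2.1 * q.1 ^ j
def xf (q : TQ) (j i : ℕ) : ℕ := fld (bb q j) q.1 i
def tf (j i : ℕ) : ℕ := fld (2 ^ j) 2 i
def Qj (q : TQ) (j : ℕ) : ℕ := q.2.2.1.getD j 1

/-- slotwise diagonal passes; `d Q D t x` -/
noncomputable def sd (q : TQ) (d : ℕ → ℕ → ℕ → ℕ → ℂ) : EE :=
  rap (tK q) (fun j => dgo (fun i => d (Qj q j) q.1 (tf j i) (xf q j i)))

noncomputable def HA (q : TQ) (p : ℕ) : EE := par (tK q) (fun j => hd (q.2.1 * 2 ^ p * q.1 ^ j))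

noncomputable def PHI (q : TQ) : EE := par (tB q) (fun p =>
  dgo (fun i => ee (((∑ j ∈ range (tK q), tw (bb q j) p i : ℕ) : ℝ) / 2 ^ (p + 1))) * HA q p)

noncomputable def PHIi (q : TQ) : EE := rap (tB q) (fun p =>
  HA q p * dgo (fun i => ee (-((∑ j ∈ range (tK q), tw (bb q j) p i : ℕ) : ℝ) / 2 ^ (p + 1)) / 2 ^ tK q))

def sg (dir : ℕ) : ℤ := if dir = 0 then 1 else -1

noncomputable def d1 (dir ε Q D t x : ℕ) : ℂ :=
  if t = dir then (if dir = 0 then 1 / 2 else -1 / (2 * (Q : ℂ))) *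
    ee (sg dir * x ^ 2 / (2 * Q) - ε * x / (2 * D))
  else ee (-(sg dir * x ^ 2 / (2 * Q)) - ε * x / (2 * D))

noncomputable def d2 (dir ε Q D t x : ℕ) : ℂ :=
  if t = dir then (if dir = 0 then 2 else -(2 * (Q : ℂ))) *
    ee (-(sg dir * x ^ 2 / (2 * Q)) + ε * x / (2 * D))
  else ee (sg dir * x ^ 2 / (2 * Q) + ε * x / (2 * D))

noncomputable def eig (dir ε Q D r : ℕ) : ℂ :=
  ∑ m ∈ range D, (ee ((2 * r + ε) * m / (2 * D) - sg dir * m ^ 2 / (2 * Q)) +
    ee ((2 * r + ε) * m / (2 * D) + ε / 2 - sg dir * (D - m) ^ 2 / (2 * Q)))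

noncomputable def SH (q : TQ) (dir ε : ℕ) : EE :=
  rap (tK q) (fun j => l2 (2 ^ j) (fun _ => 1)
    (fun i => if tf j i = dir then eig dir ε (Qj q j) q.1 (rv (tB q) (xf q j i)) else 0))

noncomputable def BL (q : TQ) (dir ε : ℕ) : EE :=
  sd q (d1 dir ε) * PHIi q * SH q dir ε * PHI q * sd q (d2 dir ε)

noncomputable def msk (Q _D _t x : ℕ) : ℂ := if x < Q then 1 else 0

noncomputable def nrm (Q _D t _x : ℕ) : ℂ := if t = 0 then -1 else (Q : ℂ)

noncomputable def MMo (q : TQ) : EE :=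
  sd q msk * BL q 0 0 * BL q 0 1 * sd q msk * BL q 1 0 * BL q 1 1 * sd q msk * BL q 0 0 *
    BL q 0 1 * sd q msk

noncomputable def FWo (q : TQ) : EE := MMo q * fft 1 (ts q)
noncomputable def IVo (q : TQ) : EE := ifft 1 (ts q) * MMo q * sd q nrm

/-- standard cost statement -/
def Std (E : TQ → EE) : Prop :=
  ∃ c : ℕ, XC (fun q a => E q a) (fun q N => TP q ∧ N = tN q)
    (fun q => c * (Nat.log 2 (tN q) + 1) ^ 2) tX (fun q => q.1)

def ExactStmt : Prop :=
  ∀ q, TP q → ∀ a b : ℕ → ℂ, ∀ i < tN q,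
    IVo q (fun j => FWo q (lay q a) j * FWo q (lay q b) j) i = lay q (cconv (tM q) a b) i

end Crest.Agent.H5.IM
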