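import Crest.Agent.H5.IMTens

/-! Row 326, the transform: the exact convolution identity. -/

set_option autoImplicit false
set_option linter.unusedSectionVars false
set_option linter.unusedVariables false
set_option linter.unusedSimpArgs false

namespace Crest.Agent.H5.IM
open Crest.Agent.H9.IM Finset

theorem digits_sum {S D r : ℕ} (hr : r < S) (y : ℕ → ℕ) (K : ℕ) (hy : ∀ j < K, y j < D) :
    r + S * ∑ j ∈ range K, y j * D ^ j < S * D ^ K ∧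
      ∀ j < K, fld (S * D ^ j) D (r + S * ∑ j ∈ range K, y j * D ^ j) = y j := by
  induction K with
  | zero => simpa using hr
  | succ K ih =>
    obtain ⟨h1, h2⟩ := ih (fun j hj => hy j (by omega))
    have hK := hy K (by omega)
    have e : r + S * ∑ j ∈ range (K + 1), y j * D ^ j =
        (r + S * ∑ j ∈ range K, y j * D ^ j) + S * D ^ K * y K := by
      rw [sum_range_succ]; ring
    rw [e]
    generalize r + S * ∑ j ∈ range K, y j * D ^ j = X at *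
    refine ⟨?_, fun j hj => ?_⟩
    · rw [pow_succ, ← mul_assoc]
      nlinarith
    · rcases Nat.lt_succ_iff_lt_or_eq.1 hj with hj | rfl
      · rw [← h2 j hj, fld_eq_mod_div, fld_eq_mod_div]
        obtain ⟨c, hc⟩ : S * D ^ j * D ∣ S * D ^ K := by
          rw [mul_assoc, ← pow_succ]; exact mul_dvd_mul_left _ (pow_dvd_pow _ hj)
        rw [hc, mul_assoc _ c, Nat.add_mul_mod_self_left]
      · simpa using fld_mk (y := 0) h1 hK

theorem digits_ext (S D K i i0 : ℕ) : i / S = i0 / S ↔ (i / (S * D ^ K) = i0 / (S * D ^ K) ∧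
    ∀ j ∈ range K, fld (S * D ^ j) D i = fld (S * D ^ j) D i0) := by
  constructor
  · intro h
    simp only [fld, ← Nat.div_div_eq_div_mul, h, implies_true, and_self]
  · induction K with
    | zero => simp
    | succ K ih =>
      rintro ⟨h1, h2⟩
      refine ih ⟨?_, fun j hj => h2 j (mem_range.2 (by have := mem_range.1 hj; omega))⟩
      have h3 := h2 K (by simp)
      rw [pow_succ, ← mul_assoc, ← Nat.div_div_eq_div_mul i (S * D ^ K),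
        ← Nat.div_div_eq_div_mul i0 (S * D ^ K)] at h1
      unfold fld at h3
      rw [← Nat.mod_add_div (i / (S * D ^ K)) D, ← Nat.mod_add_div (i0 / (S * D ^ K)) D, h1, h3]

def dl (i0 : ℕ) : ℕ → ℂ := fun i => if i0 = i then 1 else 0

theorem fft_dl (s i0 i : ℕ) : fft 1 s (dl i0) i =
    if i / 2 ^ s = i0 / 2 ^ s then ee ((rv s i : ℝ) * (i0 % 2 ^ s : ℕ) / 2 ^ s) else 0 := by
  have hS : 0 < 2 ^ s := by positivity
  have e : ∀ y, setf 1 (2 ^ s) i y = y + 2 ^ s * (i / 2 ^ s) := fun y => by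
    rw [setf_eq]; simp [Nat.mod_one]
  rw [fft_apply one_pos]
  simp only [e, dl, Nat.div_one]
  split_ifs with h
  · rw [sum_eq_single (i0 % 2 ^ s)]
    · rw [h, Nat.mod_add_div, if_pos rfl, mul_one]
    · intro y hy hne
      rw [if_neg, mul_zero]
      intro h2
      apply hne
      rw [h2, Nat.add_mul_mod_self_left, Nat.mod_eq_of_lt (mem_range.1 hy)]
    · intro h2; exact absurd (mem_range.2 (Nat.mod_lt _ hS)) h2
  · refine sum_eq_zero (fun y hy => ?_)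
    rw [if_neg, mul_zero]
    intro h2
    apply h
    rw [h2, Nat.add_mul_div_left _ _ hS, Nat.div_eq_of_lt (mem_range.1 hy), zero_add]

theorem slot_eval {D : ℕ} [NeZero D] {Q y : ℕ} (hy : y < Q) (hQD : Q ≤ D) (φ : ℕ → ℂ)
    (z0 : Fin 2 × Fin D) :
    ∑ z, Matrix.compRingEquiv (Fin 2) (Fin D) ℂ (MS Q D) z0 z *
      ((if (z.2 : ℕ) = y then 1 else 0) * φ z.1) =
      (if (z0.2 : ℕ) < Q then lam Q D z0.1 z0.2 else 0) *
        (ee (sg z0.1 * (z0.2 : ℕ) * y / Q) * φ (1 - z0.1)) := by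
  obtain ⟨t, x⟩ := z0
  have e : ∀ (F : RR D) (c : ℂ), ∑ b : Fin D, F x b * ((if (b : ℕ) = y then 1 else 0) * c) =
      F x ⟨y, by omega⟩ * c := by
    intro F c
    rw [sum_eq_single ⟨y, by omega⟩]
    · simp
    · intro b _ hb
      rw [if_neg (fun h => hb (Fin.ext h))]; simp
    · simp
  rw [Fintype.sum_prod_type]
  change ∑ u : Fin 2, ∑ b : Fin D, MS Q D t u x b * _ = _
  simp only [e]
  fin_cases t <;> simp [MS, FF_apply, hy, lam] <;> split_ifs <;> simp [mul_assoc]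

section
variable {B s : ℕ} {Qs cs : List ℕ}

noncomputable def uu (B s K m i : ℕ) : ℂ :=
  (if i / (2 ^ s * (2 ^ B) ^ K) = 0 then 1 else 0) *
    ee (((∑ k ∈ Ico K s, fld (2 ^ k) 2 i * 2 ^ (s - 1 - k) : ℕ) : ℝ) * m / 2 ^ s)

theorem pos_facts (hQ : ∀ j < Qs.length, 0 < Qs.getD j 1)
    (hQD : ∀ j < Qs.length, Qs.getD j 1 ≤ 2 ^ B) (m : ℕ) :
    pos (2 ^ B, 2 ^ s, Qs, cs) m < 2 ^ s * (2 ^ B) ^ Qs.length ∧ (∀ j < Qs.length,
      fld (2 ^ s * (2 ^ B) ^ j) (2 ^ B) (pos (2 ^ B, 2 ^ s, Qs, cs) m) =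
        cs.getD j 0 * m % Qs.getD j 1) ∧ pos (2 ^ B, 2 ^ s, Qs, cs) m % 2 ^ s = m % 2 ^ s := by
  have := digits_sum (S := 2 ^ s) (D := 2 ^ B) (Nat.mod_lt m (by positivity))
    (fun j => cs.getD j 0 * m % Qs.getD j 1) Qs.length
    (fun j hj => lt_of_lt_of_le (Nat.mod_lt _ (hQ j hj)) (hQD j hj))
  refine ⟨this.1, this.2, ?_⟩
  simp [pos]

theorem fft_pos (hK : Qs.length ≤ s) (hQ : ∀ j < Qs.length, 0 < Qs.getD j 1)
    (hQD : ∀ j < Qs.length, Qs.getD j 1 ≤ 2 ^ B) (m : ℕ) :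
    fft 1 s (dl (pos (2 ^ B, 2 ^ s, Qs, cs) m)) = fun i => uu B s Qs.length m i *
      ∏ j ∈ range Qs.length, ((if (((SL (2 ^ s) (2 ^ B) j).get i).2 : ℕ) =
        cs.getD j 0 * m % Qs.getD j 1 then 1 else 0) *
        ee ((((((SL (2 ^ s) (2 ^ B) j).get i).1 : ℕ) * 2 ^ (s - 1 - j) : ℕ) : ℝ) * m / 2 ^ s)) := by
  obtain ⟨h1, h2, h3⟩ := pos_facts (s := s) (cs := cs) hQ hQD m
  funext i
  have e1 := ee_mod (rv s i) (show 0 < 2 ^ s by positivity) dvd_rfl m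
  simp only [Int.cast_natCast, Nat.cast_pow, Nat.cast_ofNat] at e1
  rw [fft_dl, h3, e1, prod_mul_distrib, prod_boole, uu, mul_mul_mul_comm, ← ee_sum, ← ee_add]
  simp only [digits_ext (2 ^ s) (2 ^ B) Qs.length, Nat.div_eq_of_lt h1, SL_get1, SL_get2]
  have e2 : (∀ j ∈ range Qs.length, fld (2 ^ s * (2 ^ B) ^ j) (2 ^ B) i =
      fld (2 ^ s * (2 ^ B) ^ j) (2 ^ B) (pos (2 ^ B, 2 ^ s, Qs, cs) m)) ↔ ∀ j ∈ range Qs.length,
      fld (2 ^ s * (2 ^ B) ^ j) (2 ^ B) i = cs.getD j 0 * m % Qs.getD j 1 :=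
    forall₂_congr (fun j hj => by rw [h2 j (mem_range.1 hj)])
  have e3 : (rv s i : ℝ) * m / 2 ^ s =
      ((∑ k ∈ Ico Qs.length s, fld (2 ^ k) 2 i * 2 ^ (s - 1 - k) : ℕ) : ℝ) * m / 2 ^ s +
      ∑ j ∈ range Qs.length, ((fld (2 ^ j) 2 i * 2 ^ (s - 1 - j) : ℕ) : ℝ) * m / 2 ^ s := by
    rw [← sum_div, ← sum_mul, ← Nat.cast_sum, ← add_div, ← add_mul, ← Nat.cast_add, add_comm,
      sum_range_add_sum_Ico _ hK]; rfl
  simp only [e2, e3]
  by_cases c1 : i / (2 ^ s * (2 ^ B) ^ Qs.length) = 0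
  · by_cases c2 : ∀ j ∈ range Qs.length,
      fld (2 ^ s * (2 ^ B) ^ j) (2 ^ B) i = cs.getD j 0 * m % Qs.getD j 1
    · rw [if_pos ⟨c1, c2⟩, if_pos c1, if_pos c2, one_mul, one_mul]
    · rw [if_neg (fun h => c2 h.2), if_neg c2, mul_zero, zero_mul]
  · rw [if_neg (fun h => c1 h.1), if_neg c1, zero_mul, zero_mul]

theorem uu_set (hK : Qs.length ≤ s) (m : ℕ) : ∀ j < Qs.length, ∀ i z,
    uu B s Qs.length m ((SL (2 ^ s) (2 ^ B) j).set i z) = uu B s Qs.length m i := by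
  intro j hj i z
  unfold uu
  rw [SL_set, setf_div_of_dvd (by positivity) z.1.2 (low_dvd (by omega) _),
    setf_div_of_dvd (by positivity) z.2.2 (by
      rw [mul_assoc, ← pow_succ]; exact mul_dvd_mul_left _ (pow_dvd_pow _ hj))]
  congr 5
  refine sum_congr rfl (fun k hk => ?_)
  have hk := mem_Ico.1 hk
  rw [fld_setf_other (by positivity) z.1.2 (dis_two (by omega)), fld_setf_low (low_dvd hk.2 _)]

noncomputable def ww (B s : ℕ) (Qs : List ℕ) (i : ℕ) : ℂ :=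
  (if i / (2 ^ s * (2 ^ B) ^ Qs.length) = 0 then 1 else 0) * ∏ j ∈ range Qs.length,
    (if fld (2 ^ s * (2 ^ B) ^ j) (2 ^ B) i < Qs.getD j 1 then
      lam (Qs.getD j 1) (2 ^ B) (fld (2 ^ j) 2 i) (fld (2 ^ s * (2 ^ B) ^ j) (2 ^ B) i) else 0)

noncomputable def chi (B s : ℕ) (Qs cs : List ℕ) (i m : ℕ) : ℂ :=
  ee (((∑ k ∈ Ico Qs.length s, fld (2 ^ k) 2 i * 2 ^ (s - 1 - k) : ℕ) : ℤ) * (m : ℝ) / (2 ^ s : ℕ)) *
    ∏ j ∈ range Qs.length,
      (ee ((sg (fld (2 ^ j) 2 i) * fld (2 ^ s * (2 ^ B) ^ j) (2 ^ B) i * cs.getD j 0 : ℤ) * (m : ℝ) /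
        Qs.getD j 1) * ee ((((1 - fld (2 ^ j) 2 i) * 2 ^ (s - 1 - j) : ℕ) : ℤ) * (m : ℝ) / (2 ^ s : ℕ)))

theorem FW_dl (hK : Qs.length ≤ s) (hQ : ∀ j < Qs.length, 0 < Qs.getD j 1)
    (hQD : ∀ j < Qs.length, Qs.getD j 1 ≤ 2 ^ B) (m i : ℕ) :
    FWo (2 ^ B, 2 ^ s, Qs, cs) (dl (pos (2 ^ B, 2 ^ s, Qs, cs) m)) i =
      ww B s Qs i * chi B s Qs cs i m := by
  unfold FWo
  rw [Module.End.mul_apply, ts_eq, fft_pos hK hQ hQD, MMo_eq hK hQ hQD]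
  unfold locM
  rw [(fam_SL hK).rap_prod _ (fun j z => (if (z.2 : ℕ) = cs.getD j 0 * m % Qs.getD j 1 then 1 else 0) *
    ee ((((z.1 : ℕ) * 2 ^ (s - 1 - j) : ℕ) : ℝ) * m / 2 ^ s)) _ (uu_set hK m)]
  beta_reduce
  rw [prod_congr rfl (fun j hj => slot_eval (Nat.mod_lt _ (hQ j (mem_range.1 hj)))
    (hQD j (mem_range.1 hj)) (fun t => ee (((t * 2 ^ (s - 1 - j) : ℕ) : ℝ) * m / 2 ^ s)) _),
    prod_mul_distrib, uu, ww, chi, mul_mul_mul_comm]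
  simp only [SL_get1, SL_get2, Int.cast_natCast, Nat.cast_pow, Nat.cast_ofNat]
  congr 2
  refine prod_congr rfl (fun j hj => ?_)
  have := ee_mod (sg (fld (2 ^ j) 2 i) * fld (2 ^ s * (2 ^ B) ^ j) (2 ^ B) i)
    (hQ j (mem_range.1 hj)) dvd_rfl (cs.getD j 0 * m)
  congr 1
  push_cast at this ⊢
  rw [this]; congr 1; ring

theorem ee_char (z : ℤ) {n M : ℕ} (hn : 0 < n) (h : n ∣ M) (x y : ℕ) :
    ee (z * (((x + y) % M : ℕ) : ℝ) / n) = ee (z * (x : ℝ) / n) * ee (z * (y : ℝ) / n) := by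
  rw [ee_mod z hn h, ← ee_add]; congr 1; push_cast; ring

theorem chi_add (hQ : ∀ j < Qs.length, 0 < Qs.getD j 1) (i x y : ℕ) :
    chi B s Qs cs i ((x + y) % (2 ^ s * Qs.prod)) = chi B s Qs cs i x * chi B s Qs cs i y := by
  unfold chi
  rw [ee_char _ (by positivity) (dvd_mul_right _ _), mul_mul_mul_comm, ← prod_mul_distrib]
  congr 1
  refine prod_congr rfl (fun j hj => ?_)
  have hj := mem_range.1 hj
  rw [ee_char _ (hQ j hj), ee_char _ (by positivity) (dvd_mul_right _ _), mul_mul_mul_comm]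
  refine Dvd.dvd.mul_left (List.dvd_prod ?_) _
  rw [List.getD_eq_getElem _ _ hj]; exact List.getElem_mem _

theorem sd_dgo (d : ℕ → ℕ → ℕ → ℕ → ℂ) : sd (2 ^ B, 2 ^ s, Qs, cs) d = dgo (fun i =>
    ∏ j ∈ range Qs.length,
      d (Qs.getD j 1) (2 ^ B) (fld (2 ^ j) 2 i) (fld (2 ^ s * (2 ^ B) ^ j) (2 ^ B) i)) :=
  rap_dgo _ _

theorem lay_eq (q : TQ) (a : ℕ → ℂ) : lay q a = ∑ m ∈ range (tM q), a m • dl (pos q m) := by
  funext i
  simp [lay, dl, Finset.sum_apply]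

theorem FW_lay (hK : Qs.length ≤ s) (hQ : ∀ j < Qs.length, 0 < Qs.getD j 1)
    (hQD : ∀ j < Qs.length, Qs.getD j 1 ≤ 2 ^ B) (a : ℕ → ℂ) (i : ℕ) :
    FWo (2 ^ B, 2 ^ s, Qs, cs) (lay (2 ^ B, 2 ^ s, Qs, cs) a) i =
      ww B s Qs i * ∑ m ∈ range (2 ^ s * Qs.prod), a m * chi B s Qs cs i m := by
  rw [lay_eq, map_sum, Finset.sum_apply, mul_sum]
  refine sum_congr rfl (fun m _ => ?_)
  rw [map_smul, Pi.smul_apply, FW_dl hK hQ hQD, smul_eq_mul]; ring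

theorem cconv_sum {M : ℕ} (hM : 0 < M) (a b χ : ℕ → ℂ) (h : ∀ x y, χ ((x + y) % M) = χ x * χ y) :
    ∑ m ∈ range M, cconv M a b m * χ m =
      (∑ m ∈ range M, a m * χ m) * ∑ m ∈ range M, b m * χ m := by
  rw [sum_mul_sum]
  simp only [cconv, sum_mul]
  rw [sum_comm]
  refine sum_congr rfl (fun x _ => ?_)
  rw [sum_comm]
  refine sum_congr rfl (fun y _ => ?_)
  simp only [ite_mul, zero_mul, sum_ite_eq, mem_range, Nat.mod_lt _ hM, if_true, h]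
  ring

theorem msk_fft (hK : Qs.length ≤ s) (hQ : ∀ j < Qs.length, 0 < Qs.getD j 1)
    (hQD : ∀ j < Qs.length, Qs.getD j 1 ≤ 2 ^ B) (c : ℕ → ℂ) :
    sd (2 ^ B, 2 ^ s, Qs, cs) msk (fft 1 s (lay (2 ^ B, 2 ^ s, Qs, cs) c)) =
      fft 1 s (lay (2 ^ B, 2 ^ s, Qs, cs) c) := by
  rw [lay_eq, map_sum, map_sum]
  refine sum_congr rfl (fun m _ => ?_)
  rw [map_smul, map_smul, fft_pos hK hQ hQD]
  congr 1
  rw [sd_dgo]
  funext i
  rw [dgo_apply, mul_left_comm, ← prod_mul_distrib]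
  congr 1
  refine prod_congr rfl (fun j hj => ?_)
  split_ifs with h
  · rw [SL_get2] at h
    rw [msk, if_pos (lt_of_eq_of_lt h (Nat.mod_lt _ (hQ j (mem_range.1 hj)))), one_mul]
  · simp

theorem ww_sq (i : ℕ) : ww B s Qs i * ww B s Qs i = (∏ j ∈ range Qs.length,
    lam (Qs.getD j 1) (2 ^ B) (fld (2 ^ j) 2 i) (fld (2 ^ s * (2 ^ B) ^ j) (2 ^ B) i)) *
    ww B s Qs i := by
  unfold ww
  rw [mul_mul_mul_comm, mul_left_comm (∏ j ∈ range Qs.length, lam _ _ _ _), ← prod_mul_distrib,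
    ← prod_mul_distrib]
  congr 1
  · split_ifs <;> simp
  · refine prod_congr rfl (fun k _ => ?_)
    split_ifs <;> simp

theorem alg_aux {X Y Z F G : EE} {c : ℕ → ℂ} (e3 : G * F = 1)
    (e4 : (X * Y * Z * X) (F c) = F c) : (G * X * Y) (Z ((X * F) c)) = c := by
  simp only [Module.End.mul_apply] at e4 ⊢
  rw [e4, ← Module.End.mul_apply, e3, Module.End.one_apply]

theorem exact_aux (hK : Qs.length ≤ s) (hQ : ∀ j < Qs.length, 0 < Qs.getD j 1)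
    (hQD : ∀ j < Qs.length, Qs.getD j 1 ≤ 2 ^ B) (hM : 0 < 2 ^ s * Qs.prod) (a b : ℕ → ℂ) :
    IVo (2 ^ B, 2 ^ s, Qs, cs) (fun j => FWo (2 ^ B, 2 ^ s, Qs, cs) (lay (2 ^ B, 2 ^ s, Qs, cs) a) j *
      FWo (2 ^ B, 2 ^ s, Qs, cs) (lay (2 ^ B, 2 ^ s, Qs, cs) b) j) =
      lay (2 ^ B, 2 ^ s, Qs, cs) (cconv (2 ^ s * Qs.prod) a b) := by
  have e : (fun j => FWo (2 ^ B, 2 ^ s, Qs, cs) (lay (2 ^ B, 2 ^ s, Qs, cs) a) j *
      FWo (2 ^ B, 2 ^ s, Qs, cs) (lay (2 ^ B, 2 ^ s, Qs, cs) b) j) =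
      sd (2 ^ B, 2 ^ s, Qs, cs) lam (FWo (2 ^ B, 2 ^ s, Qs, cs)
        (lay (2 ^ B, 2 ^ s, Qs, cs) (cconv (2 ^ s * Qs.prod) a b))) := by
    funext j
    rw [sd_dgo, dgo_apply, FW_lay hK hQ hQD, FW_lay hK hQ hQD, FW_lay hK hQ hQD,
      cconv_sum hM _ _ _ (chi_add hQ j), mul_mul_mul_comm, ww_sq, mul_assoc]
  have e2 := MMo_sq (cs := cs) hK hQ hQD
  have e3 := ifft_fft one_pos s
  have e4 := msk_fft (cs := cs) hK hQ hQD (cconv (2 ^ s * Qs.prod) a b)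
  rw [e, IVo, FWo, ts_eq]
  rw [← e2] at e4
  exact alg_aux e3 e4

end

theorem TP_Q {q : TQ} (h : ∀ Q ∈ q.2.2.1, 0 < Q ∧ Q ≤ q.1) {j : ℕ} (hj : j < tK q) :
    0 < Qj q j ∧ Qj q j ≤ q.1 := by
  apply h
  unfold Qj
  rw [List.getD_eq_getElem _ _ hj]; exact List.getElem_mem _

theorem exactStmt : ExactStmt := by
  intro q hq a b i _
  obtain ⟨B, s, hD, hS, -, -, hK, -, -, hQs, -⟩ := hq
  have hq : q = (2 ^ B, 2 ^ s, q.2.2.1, q.2.2.2) := by rw [← hD, ← hS]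
  have h1 : ∀ j < q.2.2.1.length, 0 < q.2.2.1.getD j 1 := fun j hj => (TP_Q hQs hj).1
  have h2 : ∀ j < q.2.2.1.length, q.2.2.1.getD j 1 ≤ 2 ^ B := fun j hj => hD ▸ (TP_Q hQs hj).2
  have h3 : 0 < 2 ^ s * q.2.2.1.prod :=
    Nat.mul_pos (by positivity) (List.prod_pos (fun Q hQ => (hQs Q hQ).1))
  have := exact_aux (cs := q.2.2.2) hK h1 h2 h3 a b
  rw [← hq, ← hS] at this
  exact congrFun this i

theorem transStmt_of (h1 : Std FWo) (h2 : Std IVo) (hE : ExecStmt) : TransStmt := by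
  obtain ⟨c1, h1⟩ := h1
  obtain ⟨c2, h2⟩ := h2
  have hX : ∀ q, 0 ≤ tX q := fun q => by unfold tX; positivity
  refine ⟨fun q a => FWo q a, fun q a => IVo q a, c1 + c2, ?_, ?_, fun q hq => ⟨fun a b i _ => ?_,
    exactStmt q hq⟩⟩
  · exact hE.mono h1 id _ _ _ _ _ 1 Crest.Agent.H3.Ptime.PT.id' (fun q N h =>
      ⟨h, fun _ _ _ => rfl, Nat.mul_le_mul_right _ (Nat.le_add_right _ _), le_rfl, hX q,
        by simp⟩)
  · exact hE.mono h2 id _ _ _ _ _ 1 Crest.Agent.H3.Ptime.PT.id' (fun q N h =>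
      ⟨h, fun _ _ _ => rfl, Nat.mul_le_mul_right _ (Nat.le_add_left _ _), le_rfl, hX q,
        by simp⟩)
  · simp only [map_add, Pi.add_apply]

end Crest.Agent.H5.IM
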