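import Crest.Agent.H5.IMDef

/-! Row 326, the transform: exponentials, the radix two transform on a field, local operators. -/

set_option autoImplicit false
set_option linter.unusedSectionVars false
set_option linter.unusedVariables false

namespace Crest.Agent.H5.IM
open Crest.Agent.H9.IM Finset

theorem ee_add (x y : ℝ) : ee (x + y) = ee x * ee y := by
  unfold ee; rw [← Complex.exp_add]; congr 1; push_cast; ring

theorem ee_int (n : ℤ) : ee n = 1 := by
  unfold ee
  rw [← Complex.exp_int_mul_two_pi_mul_I n]; congr 1; push_cast; ring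

theorem ee_zero : ee 0 = 1 := by simpa using ee_int 0

theorem ee_congr {x y : ℝ} (n : ℤ) (h : x = y + n) : ee x = ee y := by
  rw [h, ee_add, ee_int, mul_one]

theorem ee_half : ee (1 / 2) = -1 := by
  unfold ee; rw [← Complex.exp_pi_mul_I]; congr 1; push_cast; ring

theorem ee_add_half {x y : ℝ} (h : x = y + 1 / 2) : ee x = -ee y := by
  rw [h, ee_add, ee_half]; ring

theorem norm_ee (x : ℝ) : ‖ee x‖ = 1 := by
  unfold ee
  have : 2 * (Real.pi : ℂ) * x * Complex.I = ((2 * Real.pi * x : ℝ) : ℂ) * Complex.I := by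
    push_cast; ring
  rw [this, Complex.norm_exp_ofReal_mul_I]

theorem ee_mul_neg {x y : ℝ} (h : x + y = 0) : ee x * ee y = 1 := by rw [← ee_add, h, ee_zero]

theorem ee_nat_mul (n : ℕ) (x : ℝ) : ee (n * x) = ee x ^ n := by
  induction n with
  | zero => simp [ee_zero]
  | succ n ih => rw [pow_succ, ← ih, ← ee_add]; congr 1; push_cast; ring

theorem ee_sum {ι : Type} (s : Finset ι) (f : ι → ℝ) : ee (∑ j ∈ s, f j) = ∏ j ∈ s, ee (f j) := by
  classical
  induction s using Finset.induction_on with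
  | empty => simp [ee_zero]
  | insert a s ha ih => rw [sum_insert ha, prod_insert ha, ee_add, ih]

theorem ee_eq_one {x : ℝ} (h : ee x = 1) : ∃ n : ℤ, x = n := by
  unfold ee at h
  obtain ⟨n, hn⟩ := Complex.exp_eq_one_iff.1 h
  refine ⟨n, ?_⟩
  have h2 : (2 * Real.pi * Complex.I : ℂ) ≠ 0 := Complex.two_pi_I_ne_zero
  have : (x : ℂ) = n := by
    apply mul_right_cancel₀ h2
    rw [← hn]; ring
  exact_mod_cast this

/-- periodicity -/
theorem ee_mod (z : ℤ) {n M : ℕ} (hn : 0 < n) (h : n ∣ M) (m : ℕ) :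
    ee (z * ((m % M : ℕ) : ℝ) / n) = ee (z * (m : ℝ) / n) := by
  obtain ⟨c, rfl⟩ := h
  have h1 : (m : ℝ) = (m % (n * c) : ℕ) + n * c * (m / (n * c) : ℕ) := by
    exact_mod_cast (Nat.mod_add_div m (n * c)).symm
  have hn' : (n : ℝ) ≠ 0 := by positivity
  refine (ee_congr (z * c * (m / (n * c) : ℕ)) ?_).symm
  generalize (m % (n * c) : ℕ) = r at *
  generalize (m / (n * c) : ℕ) = u at *
  rw [h1]; push_cast; field_simp

theorem ee_orth {Q a c : ℕ} (σ : ℤ) (hσ : σ = 1 ∨ σ = -1) (ha : a < Q) (hc : c < Q) :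
    ∑ b ∈ range Q, ee (σ * a * b / Q) * ee (-σ * b * c / Q) = if a = c then (Q : ℂ) else 0 := by
  have hQ : (Q : ℝ) ≠ 0 := by have : 0 < Q := by omega
                              positivity
  have e : ∀ b : ℕ, ee (σ * a * b / Q) * ee (-σ * b * c / Q) = ee (σ * (a - c) / Q) ^ b := by
    intro b
    rw [← ee_add, ← ee_nat_mul]; congr 1; ring
  simp only [e]
  split_ifs with h
  · subst h; simp [ee_zero]
  · have h1 : ee (σ * (a - c) / Q) ≠ 1 := by
      intro h1
      obtain ⟨n, hn⟩ := ee_eq_one h1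
      rw [div_eq_iff hQ] at hn
      have h2 : σ * ((a : ℤ) - c) = n * Q := by exact_mod_cast hn
      have h3 : (Q : ℤ) ∣ (a : ℤ) - c := by
        rcases hσ with rfl | rfl
        · exact ⟨n, by linarith⟩
        · exact ⟨-n, by linarith⟩
      have := Int.eq_zero_of_abs_lt_dvd h3 (by rw [abs_lt]; constructor <;> omega)
      omega
    have h2 : ee (σ * (a - c) / Q) ^ Q = 1 := by
      rw [← ee_nat_mul, ← ee_int (σ * (a - c))]; congr 1; push_cast; field_simp
    have e3 := geom_sum_mul (ee (σ * (a - c) / Q)) Q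
    rw [h2, sub_self] at e3
    exact (mul_eq_zero.1 e3).resolve_right (sub_ne_zero.2 h1)

/-! ### fields -/

theorem fld_two (m i : ℕ) : fld m 2 i = 0 ∨ fld m 2 i = 1 := by
  have := fld_lt (lo := m) (i := i) (L := 2) (by norm_num); omega

theorem xor_two_pow (j i : ℕ) : i ^^^ 2 ^ j = setf (2 ^ j) 2 i (1 - fld (2 ^ j) 2 i) := by
  have h1 : (i ^^^ 2 ^ j) % 2 ^ j = i % 2 ^ j := by simp [Nat.xor_mod_two_pow]
  have h2 : (i ^^^ 2 ^ j) / 2 ^ j = (i / 2 ^ j) ^^^ 1 := by
    rw [Nat.xor_div_two_pow, Nat.div_self (by positivity)]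
  have h3 := Nat.mod_add_div (i ^^^ 2 ^ j) (2 ^ j)
  have h4 := Nat.mod_add_div i (2 ^ j)
  have h5 := setf_add (2 ^ j) 2 i (1 - fld (2 ^ j) 2 i)
  rw [h1, h2] at h3
  unfold fld at h5 ⊢
  rcases Nat.even_or_odd (i / 2 ^ j) with h | h
  · rw [Nat.xor_one_of_even h] at h3
    rw [Nat.even_iff] at h
    rw [h] at h5 ⊢
    rw [mul_add] at h3
    omega
  · rw [Nat.xor_one_of_odd h] at h3
    have h6 := h.pos
    rw [Nat.odd_iff] at h
    rw [h] at h5 ⊢
    rw [Nat.mul_sub] at h3
    have := Nat.mul_le_mul_left (2 ^ j) h6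
    omega

theorem had_eq (m : ℕ) (a : ℕ → ℂ) (i : ℕ) :
    had m a i = a (setf m 2 i 0) + (-1) ^ fld m 2 i * a (setf m 2 i 1) := by
  have h0 := setf_add m 2 i 0
  have h1 := setf_add m 2 i 1
  unfold had
  change (if fld m 2 i = 0 then _ else _) = _
  rcases fld_two m i with h | h <;> rw [h] at h0 h1 ⊢
  · rw [if_pos rfl, show setf m 2 i 0 = i by omega, show setf m 2 i 1 = i + m by omega]; ring
  · rw [if_neg one_ne_zero, show setf m 2 i 0 = i - m by omega, show setf m 2 i 1 = i by omega]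
    ring

theorem setf_merge {lo L M i y β : ℕ} (hlo : 0 < lo) (hy : y < L) :
    setf (lo * L) M (setf lo L i y) β = setf lo (L * M) i (y + L * β) := by
  rw [setf_eq (lo * L), setf_eq lo (L * M), setf_div_of_dvd hlo hy (dvd_mul_right _ _), setf_eq,
    Nat.add_mul_mod_self_left, Nat.mod_eq_of_lt, ← mul_assoc]
  · ring
  · have := Nat.mod_lt i hlo
    nlinarith

theorem fld_nest {b c M D : ℕ} (h : c * M ∣ D) (i : ℕ) :
    fld (b * c) M i = fld c M (fld b D i) := by
  obtain ⟨e, rfl⟩ := h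
  unfold fld
  rw [mul_assoc, Nat.mod_mul_right_div_self, Nat.mod_mod_of_dvd _ (dvd_mul_right _ _),
    Nat.div_div_eq_div_mul]

theorem setf_nest {b c M D : ℕ} (h : c * M ∣ D) (i β : ℕ) :
    setf (b * c) M i β = setf b D i (setf c M (fld b D i) β) := by
  have h1 := setf_add (b * c) M i β
  have h2 := setf_add b D i (setf c M (fld b D i) β)
  have h3 := setf_add c M (fld b D i) β
  rw [fld_nest h] at h1
  have h4 := congrArg (· * b) h3
  simp only [add_mul] at h4
  have e1 : fld c M (fld b D i) * (b * c) = fld c M (fld b D i) * c * b := by ring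
  have e2 : β * (b * c) = β * c * b := by ring
  omega

theorem rv_succ (n x : ℕ) : rv (n + 1) x = 2 * rv n x + x / 2 ^ n % 2 := by
  unfold rv
  rw [sum_range_succ, mul_sum]
  congr 1
  · refine sum_congr rfl (fun k hk => ?_)
    have := mem_range.1 hk
    rw [show n + 1 - 1 - k = n - 1 - k + 1 by omega, pow_succ]; ring
  · simp

theorem rv_mod (n x : ℕ) : rv n (x % 2 ^ n) = rv n x := by
  unfold rv
  refine sum_congr rfl (fun k hk => ?_)
  have hk := mem_range.1 hk
  have := fld_nest (b := 1) (c := 2 ^ k) (M := 2) (D := 2 ^ n)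
    (by rw [← pow_succ]; exact pow_dvd_pow _ hk) x
  unfold fld at this
  simp only [one_mul, Nat.div_one] at this
  rw [this]

theorem fft_apply {lo : ℕ} (hlo : 0 < lo) (n : ℕ) (a : ℕ → ℂ) (i : ℕ) :
    fft lo n a i = ∑ y ∈ range (2 ^ n),
      ee ((rv n (i / lo) : ℝ) * y / 2 ^ n) * a (setf lo (2 ^ n) i y) := by
  induction n generalizing a with
  | zero =>
    have := setf_fld lo 1 i
    simp only [fld, Nat.mod_one] at this
    simp [fft, par_zero, this, ee_zero]
  | succ n ih =>
    have e : fft lo (n + 1) a = fft lo n (fl lo n a) := by unfold fft; rw [par_succ]; rfl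
    rw [e, ih, pow_succ 2 n, mul_two, sum_range_add, ← sum_add_distrib]
    refine sum_congr rfl (fun y hy => ?_)
    have hy := mem_range.1 hy
    have e2 : ∀ j, fl lo n a j = ee ((tw lo n j : ℝ) / 2 ^ (n + 1)) * had (lo * 2 ^ n) a j :=
      fun j => rfl
    rw [e2, had_eq, setf_merge hlo hy, setf_merge hlo hy, tw, fld_setf_same hlo hy,
      fld_setf_high hlo hy dvd_rfl, rv_succ, ← mul_two, Nat.div_div_eq_div_mul]
    change _ = ee (((2 * rv n (i / lo) + fld (lo * 2 ^ n) 2 i : ℕ) : ℝ) * _ / _) * _ +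
      ee (((2 * rv n (i / lo) + fld (lo * 2 ^ n) 2 i : ℕ) : ℝ) * _ / _) * _
    simp only [mul_zero, add_zero, mul_one, add_comm (2 ^ n) y]
    generalize rv n (i / lo) = r
    have h1 : ∀ β : ℕ, ee ((r : ℝ) * y / 2 ^ n) * ee (((β * y : ℕ) : ℝ) / 2 ^ (n + 1)) =
        ee (((2 * r + β : ℕ) : ℝ) * y / 2 ^ (n + 1)) := by
      intro β; rw [← ee_add]; congr 1; push_cast; field_simp; ring
    have h2 : ∀ β : ℕ, ee (((2 * r + β : ℕ) : ℝ) * ((y + 2 ^ n : ℕ) : ℝ) / 2 ^ (n + 1)) =
        ee (((2 * r + β : ℕ) : ℝ) * y / 2 ^ (n + 1)) * (-1) ^ β := by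
      intro β
      rw [← ee_half, ← ee_nat_mul, ← ee_add]
      refine ee_congr r ?_
      push_cast; field_simp; ring
    rw [h2, ← h1]; ring

theorem hd_hd {m : ℕ} (hm : 0 < m) (a : ℕ → ℂ) (i : ℕ) : had m (had m a) i = 2 * a i := by
  simp only [had_eq, setf_setf hm (show 0 < 2 by norm_num), setf_setf hm (show 1 < 2 by norm_num),
    fld_setf_same hm (show 0 < 2 by norm_num), fld_setf_same hm (show 1 < 2 by norm_num)]
  have := setf_fld m 2 i
  rcases fld_two m i with h | h <;> rw [h] at this ⊢ <;> rw [this] <;> ring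

theorem il_fl {lo : ℕ} (hlo : 0 < lo) (p : ℕ) : il lo p * fl lo p = 1 := by
  ext1 a
  funext i
  have e : (il lo p * fl lo p) a = hd (lo * 2 ^ p) ((1 / 2 : ℂ) • hd (lo * 2 ^ p) a) := by
    unfold il fl
    simp only [Module.End.mul_apply]
    congr 1
    funext j
    simp only [dgo_apply, Pi.smul_apply, smul_eq_mul]
    have := ee_mul_neg (x := -(tw lo p j : ℝ) / 2 ^ (p + 1)) (y := (tw lo p j : ℝ) / 2 ^ (p + 1))
      (by ring)
    linear_combination (hd (lo * 2 ^ p) a j / 2) * this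
  rw [e, map_smul]
  simp only [Pi.smul_apply, smul_eq_mul, hd_apply, hd_hd (show 0 < lo * 2 ^ p by positivity)]
  simp

theorem ifft_fft {lo : ℕ} (hlo : 0 < lo) (n : ℕ) : ifft lo n * fft lo n = 1 := by
  induction n with
  | zero => simp [ifft, fft, par_zero, rap_zero]
  | succ n ih =>
    unfold ifft fft at *
    rw [par_succ, rap_succ, mul_assoc, ← mul_assoc (rap n _), ih, one_mul, il_fl hlo]

theorem dgo_mul (α β : ℕ → ℂ) : dgo α * dgo β = dgo (fun i => α i * β i) := by
  ext1 a; funext i; simp [dgo_apply, mul_assoc]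

theorem rap_dgo (n : ℕ) (α : ℕ → ℕ → ℂ) :
    rap n (fun j => dgo (α j)) = dgo (fun i => ∏ j ∈ range n, α j i) := by
  induction n with
  | zero => ext1 a; funext i; simp [rap_zero, dgo_apply]
  | succ n ih => rw [rap_succ, ih, dgo_mul]; simp only [prod_range_succ, mul_comm]

/-! ### local operators -/

structure Lens (Z : Type) where
  get : ℕ → Z
  set : ℕ → Z → ℕ

section lens
variable {Z : Type} [Fintype Z] [DecidableEq Z]

structure Lens.Ok (L : Lens Z) : Prop where
  get_set : ∀ i z, L.get (L.set i z) = z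
  set_set : ∀ i z w, L.set (L.set i z) w = L.set i w
  set_get : ∀ i, L.set i (L.get i) = i

structure Lens.Ind (L L' : Lens Z) : Prop where
  get_set : ∀ i z, L.get (L'.set i z) = L.get i
  comm : ∀ i z w, L.set (L'.set i w) z = L'.set (L.set i z) w

def Lens.loc (L : Lens Z) (A : Matrix Z Z ℂ) : EE where
  toFun a := fun i => ∑ z, A (L.get i) z * a (L.set i z)
  map_add' a b := by funext i; simp only [Pi.add_apply, mul_add, sum_add_distrib]
  map_smul' c a := by
    funext i; simp only [Pi.smul_apply, smul_eq_mul, RingHom.id_apply, mul_sum]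
    exact sum_congr rfl (fun z _ => by ring)

theorem Lens.loc_apply (L : Lens Z) (A : Matrix Z Z ℂ) (a : ℕ → ℂ) (i : ℕ) :
    L.loc A a i = ∑ z, A (L.get i) z * a (L.set i z) := rfl

theorem Lens.Ok.loc_mul {L : Lens Z} (h : L.Ok) (A B : Matrix Z Z ℂ) :
    L.loc A * L.loc B = L.loc (A * B) := by
  ext1 a; funext i
  simp only [Module.End.mul_apply, Lens.loc_apply, h.get_set, h.set_set, Matrix.mul_apply,
    mul_sum, sum_mul]
  rw [sum_comm]
  exact sum_congr rfl (fun _ _ => sum_congr rfl (fun _ _ => by ring))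

theorem Lens.Ok.loc_diag {L : Lens Z} (h : L.Ok) (d : Z → ℂ) :
    L.loc (Matrix.diagonal d) = dgo (fun i => d (L.get i)) := by
  ext1 a; funext i
  rw [Lens.loc_apply, dgo_apply, sum_eq_single (L.get i)]
  · rw [h.set_get, Matrix.diagonal_apply_eq]
  · intro b _ hb; rw [Matrix.diagonal_apply_ne _ hb.symm, zero_mul]
  · simp

theorem loc_comm {L L' : Lens Z} (h : L.Ind L') (h' : L'.Ind L) (A B : Matrix Z Z ℂ) :
    Commute (L.loc A) (L'.loc B) := by
  ext1 a; funext i
  simp only [Module.End.mul_apply, Lens.loc_apply, h.get_set, h'.get_set, h.comm, mul_sum]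
  rw [sum_comm]
  exact sum_congr rfl (fun _ _ => sum_congr rfl (fun _ _ => by ring))

def Lens.Is (L : Lens Z) (E : EE) : Prop := ∃ A, E = L.loc A

theorem Lens.Ok.is_mul {L : Lens Z} (h : L.Ok) {E F : EE} (hE : L.Is E) (hF : L.Is F) :
    L.Is (E * F) := by
  obtain ⟨A, rfl⟩ := hE
  obtain ⟨B, rfl⟩ := hF
  exact ⟨_, h.loc_mul A B⟩

theorem Lens.Ok.is_dgo {L : Lens Z} (h : L.Ok) (d : Z → ℂ) : L.Is (dgo (fun i => d (L.get i))) :=
  ⟨_, (h.loc_diag d).symm⟩

theorem Lens.Ok.is_one {L : Lens Z} (h : L.Ok) : L.Is 1 := by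
  have := h.is_dgo (fun _ => 1)
  convert this using 1
  ext1 a; funext i; simp [dgo_apply]

theorem Lens.Ok.is_par {L : Lens Z} (h : L.Ok) {n : ℕ} {E : ℕ → EE} (hE : ∀ p < n, L.Is (E p)) :
    L.Is (par n E) := by
  induction n with
  | zero => exact h.is_one
  | succ n ih => rw [par_succ]; exact h.is_mul (ih (fun p hp => hE p (by omega))) (hE n (by omega))

theorem Lens.Ok.is_rap {L : Lens Z} (h : L.Ok) {n : ℕ} {E : ℕ → EE} (hE : ∀ p < n, L.Is (E p)) :
    L.Is (rap n E) := by
  induction n with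
  | zero => exact h.is_one
  | succ n ih => rw [rap_succ]; exact h.is_mul (hE n (by omega)) (ih (fun p hp => hE p (by omega)))

theorem Lens.is_two (L : Lens Z) {E : EE} (α β : Z → ℂ) (φ ψ : Z → Z)
    (h : ∀ a i, E a i = α (L.get i) * a (L.set i (φ (L.get i))) +
      β (L.get i) * a (L.set i (ψ (L.get i)))) : L.Is E := by
  refine ⟨Matrix.of fun z w => (if w = φ z then α z else 0) + (if w = ψ z then β z else 0), ?_⟩
  ext1 a; funext i
  rw [h, Lens.loc_apply]
  simp [add_mul, sum_add_distrib]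

/-- an independent family of lenses -/
structure Fam (L : ℕ → Lens Z) (n : ℕ) : Prop where
  ok : ∀ j < n, (L j).Ok
  ind : ∀ j < n, ∀ k < n, j ≠ k → (L j).Ind (L k)

theorem Fam.mono {L : ℕ → Lens Z} {n : ℕ} (h : Fam L (n + 1)) : Fam L n :=
  ⟨fun j hj => h.ok j (by omega), fun j hj k hk => h.ind j (by omega) k (by omega)⟩

theorem commute_rap {X : EE} {n : ℕ} {E : ℕ → EE} (h : ∀ j < n, Commute X (E j)) :
    Commute X (rap n E) := by
  induction n with
  | zero => exact Commute.one_right _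
  | succ n ih =>
    rw [rap_succ]; exact (h n (by omega)).mul_right (ih (fun j hj => h j (by omega)))

theorem Fam.comm_last {L : ℕ → Lens Z} {n : ℕ} (h : Fam L (n + 1)) {X : EE} (hX : (L n).Is X)
    {E : ℕ → EE} (hE : ∀ j < n, (L j).Is (E j)) : Commute X (rap n E) := by
  refine commute_rap (fun j hj => ?_)
  obtain ⟨A, rfl⟩ := hX
  obtain ⟨B, hB⟩ := hE j hj
  rw [hB]
  exact loc_comm (h.ind n (by omega) j (by omega) (by omega))
    (h.ind j (by omega) n (by omega) (by omega)) _ _

theorem Fam.rap_mul {L : ℕ → Lens Z} {n : ℕ} (h : Fam L n) {E F : ℕ → EE}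
    (hE : ∀ j < n, (L j).Is (E j)) (hF : ∀ j < n, (L j).Is (F j)) :
    rap n E * rap n F = rap n (fun j => E j * F j) := by
  induction n with
  | zero => simp [rap_zero]
  | succ n ih =>
    have hE' : ∀ j < n, (L j).Is (E j) := fun j hj => hE j (by omega)
    rw [rap_succ, rap_succ, rap_succ, ← ih h.mono hE' (fun j hj => hF j (by omega)), mul_assoc,
      mul_assoc, ← mul_assoc (rap n E), ← (h.comm_last (hF n (by omega)) hE').eq, mul_assoc]

theorem Fam.par_eq {L : ℕ → Lens Z} {n : ℕ} (h : Fam L n) {E : ℕ → EE}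
    (hE : ∀ j < n, (L j).Is (E j)) : par n E = rap n E := by
  induction n with
  | zero => rfl
  | succ n ih =>
    have hE' : ∀ j < n, (L j).Is (E j) := fun j hj => hE j (by omega)
    rw [par_succ, rap_succ, ih h.mono hE', (h.comm_last (hE n (by omega)) hE').eq]

theorem rap_one (n : ℕ) : rap n (fun _ => 1) = 1 := by
  induction n with
  | zero => rfl
  | succ n ih => rw [rap_succ, ih, one_mul]

theorem Fam.par_rap {L : ℕ → Lens Z} {n : ℕ} (h : Fam L n) {m : ℕ} {E : ℕ → ℕ → EE}
    (hE : ∀ p < m, ∀ j < n, (L j).Is (E p j)) :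
    par m (fun p => rap n (E p)) = rap n (fun j => par m (fun p => E p j)) := by
  induction m with
  | zero => simp only [par_zero, rap_one]
  | succ m ih =>
    simp only [par_succ]
    rw [ih (fun p hp => hE p (by omega)), h.rap_mul
      (fun j hj => (h.ok j hj).is_par (fun p hp => hE p (by omega) j hj)) (hE m (by omega))]

theorem Fam.rap_rap {L : ℕ → Lens Z} {n : ℕ} (h : Fam L n) {m : ℕ} {E : ℕ → ℕ → EE}
    (hE : ∀ p < m, ∀ j < n, (L j).Is (E p j)) :
    rap m (fun p => rap n (E p)) = rap n (fun j => rap m (fun p => E p j)) := by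
  induction m with
  | zero => simp only [rap_zero, rap_one]
  | succ m ih =>
    simp only [rap_succ m]
    rw [ih (fun p hp => hE p (by omega)), h.rap_mul (hE m (by omega))
      (fun j hj => (h.ok j hj).is_rap (fun p hp => hE p (by omega) j hj))]

theorem Fam.rap_prod {L : ℕ → Lens Z} {n : ℕ} (h : Fam L n) (M : ℕ → Matrix Z Z ℂ)
    (g : ℕ → Z → ℂ) (u : ℕ → ℂ) (hu : ∀ j < n, ∀ i z, u ((L j).set i z) = u i) :
    rap n (fun j => (L j).loc (M j)) (fun i => u i * ∏ j ∈ range n, g j ((L j).get i)) =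
      fun i => u i * ∏ j ∈ range n, ∑ z, M j ((L j).get i) z * g j z := by
  induction n generalizing u with
  | zero => simp [rap_zero]
  | succ n ih =>
    have := ih h.mono (fun i => u i * g n ((L n).get i)) (fun j hj i z => by
      rw [hu j (by omega), (h.ind n (by omega) j (by omega) (by omega)).get_set])
    rw [rap_succ, Module.End.mul_apply]
    simp only [prod_range_succ]
    rw [show (fun i => u i * ((∏ j ∈ range n, g j ((L j).get i)) * g n ((L n).get i))) =
      fun i => u i * g n ((L n).get i) * ∏ j ∈ range n, g j ((L j).get i) from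
      funext fun i => by ring, this]
    funext i
    rw [Lens.loc_apply, mul_sum, mul_sum]
    refine sum_congr rfl (fun z _ => ?_)
    rw [hu n (by omega), (h.ok n (by omega)).get_set, prod_congr rfl (fun j hj => by
      rw [(h.ind j (by have := mem_range.1 hj; omega) n (by omega)
        (by have := mem_range.1 hj; omega)).get_set])]
    ring

end lens

end Crest.Agent.H5.IM
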