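import Crest.Agent.H5.IMLoc

/-! Row 326, the transform: the algebra of one slot. -/

set_option autoImplicit false
set_option linter.unusedSectionVars false
set_option linter.unusedVariables false
set_option linter.unusedSimpArgs false

namespace Crest.Agent.H5.IM
open Crest.Agent.H9.IM Finset

section mat
variable {D : ℕ} [NeZero D]

abbrev RR (D : ℕ) := Matrix (Fin D) (Fin D) ℂ
abbrev M2 (D : ℕ) := Matrix (Fin 2) (Fin 2) (RR D)

def dgm (D : ℕ) (d : ℕ → ℂ) : RR D := Matrix.diagonal (fun x : Fin D => d x)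
def dM (D : ℕ) (d : ℕ → ℕ → ℂ) : M2 D := !![dgm D (d 0), 0; 0, dgm D (d 1)]
def sM (dir : ℕ) (X : RR D) : M2 D := !![1, if dir = 0 then X else 0; if dir = 1 then X else 0, 1]
def cM (X : RR D) : M2 D := !![X, 0; 0, X]

theorem dgm_mul (d e : ℕ → ℂ) : dgm D d * dgm D e = dgm D (fun x => d x * e x) :=
  Matrix.diagonal_mul_diagonal _ _

theorem dgm_one {d : ℕ → ℂ} (h : ∀ x, d x = 1) : dgm D d = 1 := by
  unfold dgm; simp [h]

theorem sM_cM (dir : ℕ) {X Y Φ : RR D} (h : X * Φ = Φ * Y) : sM dir X * cM Φ = cM Φ * sM dir Y := by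
  unfold sM cM
  split_ifs <;> simp [Matrix.mul_fin_two, h]

theorem sM_mul {dir : ℕ} (hd : dir = 0 ∨ dir = 1) (X Y : RR D) :
    sM dir X * sM dir Y = sM dir (X + Y) := by
  unfold sM
  rcases hd with rfl | rfl <;> simp [Matrix.mul_fin_two, add_comm]

theorem dM_sM {dir : ℕ} (hd : dir = 0 ∨ dir = 1) (d e : ℕ → ℕ → ℂ) (h : ∀ t x, d t x * e t x = 1)
    (X : RR D) :
    dM D d * sM dir X * dM D e = sM dir (dgm D (d dir) * X * dgm D (e (1 - dir))) := by
  have h0 : ∀ t, dgm D (d t) * dgm D (e t) = 1 := fun t => by rw [dgm_mul, dgm_one (h t)]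
  unfold sM dM
  rcases hd with rfl | rfl <;> simp [Matrix.mul_fin_two, h0]

/-- the radix two transform matrix -/
noncomputable def Phi (D : ℕ) (r : ℕ → ℕ) : RR D := Matrix.of fun x y => ee ((r x : ℝ) * (y : ℕ) / D)

def circ (D : ℕ) [NeZero D] (c : ℕ → ℂ) : RR D := Matrix.of fun a b => c ((a - b : Fin D) : ℕ)

theorem Phi_circ (r : ℕ → ℕ) (c : ℕ → ℂ) :
    dgm D (fun x => ∑ m ∈ range D, ee ((r x : ℝ) * m / D) * c m) * Phi D r = Phi D r * circ D c := by
  ext x b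
  rw [dgm, Matrix.diagonal_mul, Matrix.mul_apply, ← Equiv.sum_comp (Equiv.addRight b),
    ← Fin.sum_univ_eq_sum_range (fun m => ee ((r x : ℝ) * m / D) * c m), sum_mul]
  refine sum_congr rfl (fun m _ => ?_)
  simp only [Phi, circ, Matrix.of_apply, Equiv.coe_addRight, add_sub_cancel_right, Fin.val_add]
  have := ee_mod (r x) (NeZero.pos D) (dvd_refl D) (m + b)
  simp only [Int.cast_natCast] at this
  rw [this, mul_right_comm, ← ee_add]
  congr 2; push_cast; ring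

noncomputable def cc (dir ε Q D m : ℕ) : ℂ :=
  ee (ε * m / (2 * D) - sg dir * m ^ 2 / (2 * Q)) +
    ee (ε * m / (2 * D) + ε / 2 - sg dir * (D - m) ^ 2 / (2 * Q))

theorem eig_eq (dir ε Q r : ℕ) :
    eig dir ε Q D r = ∑ m ∈ range D, ee ((r : ℝ) * m / D) * cc dir ε Q D m := by
  have hD : (D : ℝ) ≠ 0 := by exact_mod_cast NeZero.ne D
  unfold eig cc
  refine sum_congr rfl (fun m _ => ?_)
  rw [mul_add, ← ee_add, ← ee_add]
  congr 2 <;> field_simp <;> ring

theorem d1_d2 {Q : ℕ} (hQ : 0 < Q) (dir ε D t x : ℕ) : d1 dir ε Q D t x * d2 dir ε Q D t x = 1 := by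
  have hQ' : (Q : ℂ) ≠ 0 := by exact_mod_cast hQ.ne'
  unfold d1 d2
  by_cases h : t = dir
  · rw [if_pos h, if_pos h, mul_mul_mul_comm, ee_mul_neg (by ring)]
    split_ifs
    · norm_num
    · field_simp
  · rw [if_neg h, if_neg h, ee_mul_neg (by ring)]

noncomputable def GG (dir Q D : ℕ) : RR D := Matrix.of fun a b =>
  (if dir = 0 then 1 else -1 / (Q : ℂ)) * ee (sg dir * (a : ℕ) * (b : ℕ) / Q)

theorem G_sum {Q : ℕ} (hQ : 0 < Q) {dir : ℕ} (hd : dir = 0 ∨ dir = 1) :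
    dgm D (d1 dir 0 Q D dir) * circ D (cc dir 0 Q D) * dgm D (d2 dir 0 Q D (1 - dir)) +
      dgm D (d1 dir 1 Q D dir) * circ D (cc dir 1 Q D) * dgm D (d2 dir 1 Q D (1 - dir)) =
      GG dir Q D := by
  have hD : (D : ℝ) ≠ 0 := by exact_mod_cast NeZero.ne D
  have hQ' : (Q : ℝ) ≠ 0 := by exact_mod_cast hQ.ne'
  have hQ'' : (Q : ℂ) ≠ 0 := by exact_mod_cast hQ.ne'
  have hne : 1 - dir ≠ dir := by omega
  ext a b
  simp only [dgm, Matrix.add_apply, Matrix.mul_diagonal, Matrix.diagonal_mul, circ,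
    Matrix.of_apply, d1, d2, if_true, if_neg hne, cc, GG]
  have hk : (if dir = 0 then 1 else -1 / (Q : ℂ)) =
      2 * (if dir = 0 then 1 / 2 else -1 / (2 * (Q : ℂ))) := by
    split_ifs
    · norm_num
    · field_simp
  rw [hk]
  generalize (if dir = 0 then 1 / 2 else -1 / (2 * (Q : ℂ))) = κ
  generalize (sg dir : ℝ) = σ
  have e : ∀ u v w z : ℝ, κ * ee u * (ee v + ee w) * ee z = κ * (ee (u + v + z) + ee (u + w + z)) := by
    intro u v w z; simp only [ee_add]; ring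
  rw [e, e]
  by_cases hab : b ≤ a
  · have hm : (((a - b : Fin D) : ℕ) : ℝ) = (a : ℕ) - (b : ℕ) := by
      rw [Fin.coe_sub_iff_le.2 hab, Nat.cast_sub hab]
    generalize (((a - b : Fin D) : ℕ) : ℝ) = m at hm ⊢
    generalize ((a : ℕ) : ℝ) = x at hm ⊢
    generalize ((b : ℕ) : ℝ) = y at hm ⊢
    subst hm
    simp only [Nat.cast_zero, Nat.cast_one]
    rw [ee_congr (y := σ * x * y / Q) 0 (by field_simp; ring),
      ee_congr (x := σ * x ^ 2 / (2 * Q) - 1 * x / (2 * D) + (1 * (x - y) / (2 * D) - _) + _)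
        (y := σ * x * y / Q) 0 (by field_simp; ring),
      ee_add_half (x := σ * x ^ 2 / (2 * Q) - 1 * x / (2 * D) + _ + _)
        (y := σ * x ^ 2 / (2 * Q) - 0 * x / (2 * D) + (0 * (x - y) / (2 * D) + 0 / 2 -
          σ * (D - (x - y)) ^ 2 / (2 * Q)) + (σ * y ^ 2 / (2 * Q) + 0 * y / (2 * D)))
        (by field_simp; ring)]
    ring
  · have hm : (((a - b : Fin D) : ℕ) : ℝ) = D + (a : ℕ) - (b : ℕ) := by
      rw [Fin.coe_sub_iff_lt.2 (not_le.1 hab), Nat.cast_sub (by have := b.2; omega)]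
      push_cast; ring
    generalize (((a - b : Fin D) : ℕ) : ℝ) = m at hm ⊢
    generalize ((a : ℕ) : ℝ) = x at hm ⊢
    generalize ((b : ℕ) : ℝ) = y at hm ⊢
    subst hm
    simp only [Nat.cast_zero, Nat.cast_one]
    rw [ee_congr (x := σ * x ^ 2 / (2 * Q) - 0 * x / (2 * D) + (0 * _ / (2 * D) + 0 / 2 - _) + _)
        (y := σ * x * y / Q) 0 (by field_simp; ring),
      ee_congr (x := σ * x ^ 2 / (2 * Q) - 1 * x / (2 * D) + (1 * _ / (2 * D) + 1 / 2 - _) + _)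
        (y := σ * x * y / Q) 1 (by field_simp; ring),
      ee_add_half (x := σ * x ^ 2 / (2 * Q) - 1 * x / (2 * D) + _ + _)
        (y := σ * x ^ 2 / (2 * Q) - 0 * x / (2 * D) + (0 * (D + x - y) / (2 * D) -
          σ * (D + x - y) ^ 2 / (2 * Q)) + (σ * y ^ 2 / (2 * Q) + 0 * y / (2 * D)))
        (by field_simp; ring)]
    ring

noncomputable def PP (Q D : ℕ) : RR D := dgm D (fun x => if x < Q then 1 else 0)

noncomputable def FF (dir Q D : ℕ) : RR D := PP Q D * GG dir Q D * PP Q D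

theorem PP_PP (Q : ℕ) : PP Q D * PP Q D = PP Q D := by
  unfold PP; rw [dgm_mul]; congr 1; funext x; split_ifs <;> simp

theorem FF_apply (dir Q : ℕ) (a b : Fin D) : FF dir Q D a b = if (a : ℕ) < Q ∧ (b : ℕ) < Q then
    (if dir = 0 then 1 else -1 / (Q : ℂ)) * ee (sg dir * (a : ℕ) * (b : ℕ) / Q) else 0 := by
  simp only [FF, PP, dgm, Matrix.mul_diagonal, Matrix.diagonal_mul, GG, Matrix.of_apply]
  by_cases ha : (a : ℕ) < Q <;> by_cases hb : (b : ℕ) < Q <;> simp [ha, hb]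

theorem FF_FF {Q : ℕ} (hQ : 0 < Q) (hQD : Q ≤ D) {dir : ℕ} (hd : dir = 0 ∨ dir = 1) :
    FF dir Q D * FF (1 - dir) Q D = -PP Q D := by
  have hQ'' : (Q : ℂ) ≠ 0 := by exact_mod_cast hQ.ne'
  ext a c
  simp only [Matrix.mul_apply, FF_apply, Matrix.neg_apply, PP, dgm, Matrix.diagonal_apply]
  by_cases ha : (a : ℕ) < Q
  swap
  · simp [ha]
  by_cases hc : (c : ℕ) < Q
  swap
  · have : a ≠ c := by rintro rfl; exact hc ha
    simp [hc, this]
  simp only [ha, hc, true_and, and_true, if_true]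
  have hσ : sg dir = 1 ∨ sg dir = -1 := by unfold sg; split_ifs <;> simp
  have hs : sg (1 - dir) = -sg dir := by rcases hd with rfl | rfl <;> simp [sg]
  have hk : (if dir = 0 then 1 else -1 / (Q : ℂ)) * (if 1 - dir = 0 then 1 else -1 / (Q : ℂ)) =
      -1 / Q := by rcases hd with rfl | rfl <;> simp
  have h1 := ee_orth (sg dir) hσ ha hc
  rw [Fin.sum_univ_eq_sum_range (fun b : ℕ => (if b < Q then (if dir = 0 then 1 else -1 / (Q : ℂ)) *
    ee (sg dir * (a : ℕ) * b / Q) else 0) * (if b < Q then (if 1 - dir = 0 then 1 else -1 / (Q : ℂ)) *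
    ee (sg (1 - dir) * b * (c : ℕ) / Q) else 0)) D,
    ← sum_subset (range_mono hQD) (fun b _ hb => by rw [if_neg (by simpa using hb), zero_mul]),
    sum_congr rfl (fun b hb => by
      rw [if_pos (mem_range.1 hb), if_pos (mem_range.1 hb), mul_mul_mul_comm, hk, hs,
        Int.cast_neg]), ← mul_sum, h1]
  simp only [Fin.ext_iff]
  split_ifs
  · field_simp
  · simp

noncomputable def MS (Q D : ℕ) : M2 D := !![0, FF 0 Q D; FF 1 Q D, 0]

theorem MS_eq {Q : ℕ} (hQ : 0 < Q) (hQD : Q ≤ D) :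
    cM (PP Q D) * sM 0 (GG 0 Q D) * cM (PP Q D) * sM 1 (GG 1 Q D) * cM (PP Q D) *
      sM 0 (GG 0 Q D) * cM (PP Q D) = MS Q D := by
  have h0 := FF_FF hQ hQD (dir := 0) (Or.inl rfl)
  have h1 := FF_FF hQ hQD (dir := 1) (Or.inr rfl)
  have hp := PP_PP (D := D) Q
  have hc : cM (PP Q D) * cM (PP Q D) = cM (PP Q D) := by simp [cM, Matrix.mul_fin_two, hp]
  have e : cM (PP Q D) * sM 0 (GG 0 Q D) * cM (PP Q D) * sM 1 (GG 1 Q D) * cM (PP Q D) *
      sM 0 (GG 0 Q D) * cM (PP Q D) = (cM (PP Q D) * sM 0 (GG 0 Q D) * cM (PP Q D)) *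
      (cM (PP Q D) * sM 1 (GG 1 Q D) * cM (PP Q D)) *
      (cM (PP Q D) * sM 0 (GG 0 Q D) * cM (PP Q D)) := by
    simp only [mul_assoc]
    simp only [← mul_assoc (cM (PP Q D)) (cM (PP Q D)), hc]
  have e0 : cM (PP Q D) * sM 0 (GG 0 Q D) * cM (PP Q D) = !![PP Q D, FF 0 Q D; 0, PP Q D] := by
    simp [cM, sM, Matrix.mul_fin_two, hp, FF]
  have e1 : cM (PP Q D) * sM 1 (GG 1 Q D) * cM (PP Q D) = !![PP Q D, 0; FF 1 Q D, PP Q D] := by
    simp [cM, sM, Matrix.mul_fin_two, hp, FF]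
  have l : ∀ dir, PP Q D * FF dir Q D = FF dir Q D := fun dir => by
    unfold FF; rw [← mul_assoc, ← mul_assoc, hp]
  have r : ∀ dir, FF dir Q D * PP Q D = FF dir Q D := fun dir => by
    unfold FF; rw [mul_assoc, hp]
  simp only [Nat.sub_zero, Nat.sub_self] at h0 h1
  rw [e, e0, e1]
  simp [Matrix.mul_fin_two, hp, h0, h1, l, r, MS]

noncomputable def lam (Q _D t _x : ℕ) : ℂ := if t = 0 then 1 else -1 / (Q : ℂ)

theorem MS_sq {Q : ℕ} (hQ : 0 < Q) (hQD : Q ≤ D) :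
    MS Q D * dM D (nrm Q D) * dM D (lam Q D) * MS Q D = cM (PP Q D) := by
  have hQ'' : (Q : ℂ) ≠ 0 := by exact_mod_cast hQ.ne'
  have h0 := FF_FF hQ hQD (dir := 0) (Or.inl rfl)
  have h1 := FF_FF hQ hQD (dir := 1) (Or.inr rfl)
  simp only [Nat.sub_zero, Nat.sub_self] at h0 h1
  have hn : ∀ t, dgm D (nrm Q D t) * dgm D (lam Q D t) = -1 := fun t => by
    rw [dgm_mul]
    have : (fun x => nrm Q D t x * lam Q D t x) = fun _ => -1 := by
      funext x; unfold nrm lam; split_ifs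
      · simp
      · field_simp
    rw [this]; ext a b; simp [dgm, Matrix.diagonal_apply, Matrix.one_apply]; split_ifs <;> simp
  rw [mul_assoc (MS Q D)]
  simp [Matrix.mul_fin_two, dM, MS, hn, h0, h1, cM]

end mat

end Crest.Agent.H5.IM
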