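import Crest.Agent.H5.IMSlot

/-! Row 326, the transform: the operators as tensor products over the slots. -/

set_option autoImplicit false
set_option linter.unusedSectionVars false
set_option linter.unusedVariables false
set_option linter.unusedSimpArgs false

namespace Crest.Agent.H5.IM
open Crest.Agent.H9.IM Finset

def SL (S D : ℕ) [NeZero D] (j : ℕ) : Lens (Fin 2 × Fin D) where
  get i := (Fin.ofNat 2 (i / 2 ^ j), Fin.ofNat D (i / (S * D ^ j)))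
  set i z := setf (2 ^ j) 2 (setf (S * D ^ j) D i z.2) z.1

section
variable {S D : ℕ} [NeZero D]

theorem SL_get1 (j i : ℕ) : (((SL S D j).get i).1 : ℕ) = fld (2 ^ j) 2 i := rfl
theorem SL_get2 (j i : ℕ) : (((SL S D j).get i).2 : ℕ) = fld (S * D ^ j) D i := rfl
theorem SL_set (j i : ℕ) (z : Fin 2 × Fin D) :
    (SL S D j).set i z = setf (2 ^ j) 2 (setf (S * D ^ j) D i z.2) z.1 := rfl

theorem low_dvd {s j : ℕ} (hj : j < s) (m : ℕ) : 2 ^ j * 2 ∣ 2 ^ s * m :=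
  Dvd.dvd.mul_right (by rw [← pow_succ]; exact pow_dvd_pow _ hj) _

theorem dis_pow (c d : ℕ) {j k : ℕ} (h : j ≠ k) : Dis (c * d ^ j) (c * d ^ k) d := by
  rcases lt_or_gt_of_ne h with h | h
  · left; rw [mul_assoc, ← pow_succ]; exact mul_dvd_mul_left _ (pow_dvd_pow _ h)
  · right; rw [mul_assoc, ← pow_succ]; exact mul_dvd_mul_left _ (pow_dvd_pow _ h)

theorem dis_two {j k : ℕ} (h : j ≠ k) : Dis (2 ^ j) (2 ^ k) 2 := by
  simpa using dis_pow 1 2 h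

theorem fam_SL {s K : ℕ} (hK : K ≤ s) : Fam (SL (2 ^ s) D) K := by
  have hD := NeZero.pos D
  have hb : ∀ j, 0 < 2 ^ s * D ^ j := fun j => by positivity
  have ha : ∀ j, 0 < 2 ^ j := fun j => by positivity
  refine ⟨fun j hj => ⟨fun i z => ?_, fun i z w => ?_, fun i => ?_⟩,
    fun j hj k hk hjk => ⟨fun i z => ?_, fun i z w => ?_⟩⟩
  · refine Prod.ext (Fin.ext ?_) (Fin.ext ?_)
    · rw [SL_get1, SL_set, fld_setf_same (ha j) z.1.2]
    · rw [SL_get2, SL_set, fld_setf_high (ha j) z.1.2 (low_dvd (by omega) _),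
        fld_setf_same (hb j) z.2.2]
  · rw [SL_set, SL_set, SL_set, ← setf_comm' (ha j) z.1.2 (low_dvd (by omega) _),
      setf_setf (ha j) z.1.2, setf_setf (hb j) z.2.2]
  · rw [SL_set, SL_get1, SL_get2, setf_fld, setf_fld]
  · refine Prod.ext (Fin.ext ?_) (Fin.ext ?_)
    · rw [SL_get1, SL_get1, SL_set, fld_setf_other (ha k) z.1.2 (dis_two hjk.symm),
        fld_setf_low (low_dvd (by omega) _)]
    · rw [SL_get2, SL_get2, SL_set, fld_setf_high (ha k) z.1.2 (low_dvd (by omega) _),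
        fld_setf_other (hb k) z.2.2 (dis_pow _ _ hjk.symm)]
  · simp only [SL_set]
    rw [← setf_comm' (ha k) w.1.2 (low_dvd (by omega) _),
      ← setf_comm' (ha j) z.1.2 (low_dvd (by omega) _),
      setf_comm (ha j) (ha k) z.1.2 w.1.2 (dis_two hjk),
      setf_comm (hb j) (hb k) z.2.2 w.2.2 (dis_pow _ _ hjk)]

noncomputable def locM (S D : ℕ) [NeZero D] (j : ℕ) (A : M2 D) : EE :=
  (SL S D j).loc (Matrix.compRingEquiv (Fin 2) (Fin D) ℂ A)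

theorem is_locM (j : ℕ) (A : M2 D) : (SL S D j).Is (locM S D j A) := ⟨_, rfl⟩

theorem locM_mul {j : ℕ} (h : (SL S D j).Ok) (A B : M2 D) :
    locM S D j A * locM S D j B = locM S D j (A * B) := by
  unfold locM; rw [h.loc_mul, map_mul]

theorem locM_apply (j : ℕ) (A : M2 D) (a : ℕ → ℂ) (i : ℕ) :
    locM S D j A a i = ∑ t, ∑ y, A ((SL S D j).get i).1 t ((SL S D j).get i).2 y *
      a ((SL S D j).set i (t, y)) := by
  unfold locM
  rw [Lens.loc_apply, Fintype.sum_prod_type]; rfl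

theorem dgo_eq {j : ℕ} (h : (SL S D j).Ok) (d : ℕ → ℕ → ℂ) :
    dgo (fun i => d (fld (2 ^ j) 2 i) (fld (S * D ^ j) D i)) = locM S D j (dM D d) := by
  refine (h.loc_diag (fun z => d z.1 z.2)).symm.trans ?_
  unfold locM
  congr 1
  ext ⟨t, x⟩ ⟨u, y⟩
  change _ = dM D d t u x y
  fin_cases t <;> fin_cases u <;> simp [dM, dgm, Matrix.diagonal_apply]

theorem set_x {s j : ℕ} (hj : j < s) (i : ℕ) (y : Fin D) :
    (SL (2 ^ s) D j).set i (((SL (2 ^ s) D j).get i).1, y) = setf (2 ^ s * D ^ j) D i y := by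
  rw [SL_set, SL_get1, ← fld_setf_low (lo := 2 ^ s * D ^ j) (L := D) (v := y) (low_dvd hj _),
    setf_fld]

theorem locM_cM {s j : ℕ} (hj : j < s) (X : RR D) (a : ℕ → ℂ) (i : ℕ) :
    locM (2 ^ s) D j (cM X) a i =
      ∑ y, X ((SL (2 ^ s) D j).get i).2 y * a (setf (2 ^ s * D ^ j) D i y) := by
  rw [locM_apply]
  simp only [← set_x hj]
  generalize ((SL (2 ^ s) D j).get i).1 = t
  fin_cases t <;> simp [cM]

theorem l2_eq {j : ℕ} (h : (SL S D j).Ok) {dir : ℕ} (hd : dir = 0 ∨ dir = 1) (e : ℕ → ℂ) :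
    l2 (2 ^ j) (fun _ => 1) (fun i => if fld (2 ^ j) 2 i = dir then e (fld (S * D ^ j) D i) else 0) =
      locM S D j (sM dir (dgm D e)) := by
  ext1 a; funext i
  have h1 := h.set_get i
  have h2 : ∀ u : Fin 2, (SL S D j).set i (u, ((SL S D j).get i).2) = setf (2 ^ j) 2 i u := by
    intro u; rw [SL_set, SL_get2, setf_fld]
  have h3 := setf_fld (2 ^ j) 2 i
  rw [locM_apply, l2_apply, xor_two_pow, ← SL_get1 (S := S) (D := D), ← SL_get2] at *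
  generalize ((SL S D j).get i).2 = x at *
  generalize ((SL S D j).get i).1 = t at *
  have h20 := h2 0
  have h21 := h2 1
  rcases hd with rfl | rfl <;> fin_cases t <;>
    simp_all [sM, dgm, Matrix.one_apply, Matrix.diagonal_apply, add_comm]

end

section
variable {B s K : ℕ}

theorem fft_eq {j : ℕ} (hj : j < s) :
    fft (2 ^ s * (2 ^ B) ^ j) B = locM (2 ^ s) (2 ^ B) j (cM (Phi (2 ^ B) (rv B))) := by
  ext1 a; funext i
  rw [locM_cM hj, fft_apply (by positivity), ← Fin.sum_univ_eq_sum_range (fun y : ℕ =>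
    ee ((rv B (i / (2 ^ s * (2 ^ B) ^ j)) : ℝ) * y / 2 ^ B) * a (setf _ (2 ^ B) i y))]
  refine sum_congr rfl (fun y _ => ?_)
  simp only [Phi, Matrix.of_apply, SL_get2, fld, rv_mod]
  push_cast; rfl

theorem is_hd {j p : ℕ} (hj : j < s) (hp : p < B) :
    (SL (2 ^ s) (2 ^ B) j).Is (hd (2 ^ s * (2 ^ B) ^ j * 2 ^ p)) := by
  have hdv : 2 ^ p * 2 ∣ 2 ^ B := by rw [← pow_succ]; exact pow_dvd_pow _ hp
  refine Lens.is_two _ (fun _ => 1) (fun z => (-1) ^ fld (2 ^ p) 2 z.2)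
    (fun z => (z.1, ⟨setf (2 ^ p) 2 z.2 0, setf_lt (by positivity) (by norm_num) hdv z.2.2⟩))
    (fun z => (z.1, ⟨setf (2 ^ p) 2 z.2 1, setf_lt (by positivity) (by norm_num) hdv z.2.2⟩))
    (fun a i => ?_)
  simp only [set_x hj, SL_get2]
  rw [hd_apply, had_eq, setf_nest hdv, setf_nest hdv, fld_nest hdv, one_mul]

theorem is_tw {j p : ℕ} (hK : K ≤ s) (hj : j < K) (hp : p < B) (f : ℕ → ℂ) :
    (SL (2 ^ s) (2 ^ B) j).Is (dgo (fun i => f (tw (2 ^ s * (2 ^ B) ^ j) p i))) := by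
  have hdv : 2 ^ p * 2 ∣ 2 ^ B := by rw [← pow_succ]; exact pow_dvd_pow _ hp
  have hdv' : 1 * 2 ^ p ∣ 2 ^ B := by rw [one_mul]; exact pow_dvd_pow _ hp.le
  have := ((fam_SL (D := 2 ^ B) hK).ok j hj).is_dgo
    (fun z => f (fld (2 ^ p) 2 z.2 * fld 1 (2 ^ p) z.2))
  convert this using 3 with i
  rw [SL_get2, ← fld_nest hdv, ← fld_nest hdv', mul_one, tw]

variable {Qs cs : List ℕ}

theorem tB_eq : tB (2 ^ B, 2 ^ s, Qs, cs) = B := by simp [tB, Nat.size_pow]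
theorem ts_eq : ts (2 ^ B, 2 ^ s, Qs, cs) = s := by simp [ts, Nat.size_pow]

theorem HA_eq (hK : Qs.length ≤ s) {p : ℕ} (hp : p < B) : HA (2 ^ B, 2 ^ s, Qs, cs) p =
    rap Qs.length (fun j => hd (2 ^ s * (2 ^ B) ^ j * 2 ^ p)) := by
  rw [← (fam_SL (D := 2 ^ B) hK).par_eq (fun j hj => is_hd (by omega) hp)]
  exact par_congr (fun j hj => by rw [mul_right_comm])

theorem PHI_eq (hK : Qs.length ≤ s) : PHI (2 ^ B, 2 ^ s, Qs, cs) =
    rap Qs.length (fun j => fft (2 ^ s * (2 ^ B) ^ j) B) := by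
  have hf := fam_SL (D := 2 ^ B) hK
  unfold PHI fft
  rw [tB_eq, ← hf.par_rap (E := fun p j => fl (2 ^ s * (2 ^ B) ^ j) p) (fun p hp j hj =>
    (hf.ok j hj).is_mul (is_tw hK hj hp (fun n => ee ((n : ℝ) / 2 ^ (p + 1))))
      (is_hd (by omega) hp))]
  refine par_congr (fun p hp => ?_)
  unfold fl
  rw [HA_eq hK hp, ← hf.rap_mul (fun j hj => is_tw hK hj hp (fun n => ee ((n : ℝ) / 2 ^ (p + 1))))
    (fun j hj => is_hd (by omega) hp), rap_dgo]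
  congr 2
  funext i
  rw [← ee_sum, ← sum_div, Nat.cast_sum]; rfl

theorem PHIi_eq (hK : Qs.length ≤ s) : PHIi (2 ^ B, 2 ^ s, Qs, cs) =
    rap Qs.length (fun j => ifft (2 ^ s * (2 ^ B) ^ j) B) := by
  have hf := fam_SL (D := 2 ^ B) hK
  unfold PHIi ifft
  rw [tB_eq, ← hf.rap_rap (E := fun p j => il (2 ^ s * (2 ^ B) ^ j) p) (fun p hp j hj =>
    (hf.ok j hj).is_mul (is_hd (by omega) hp)
      (is_tw hK hj hp (fun n => ee (-(n : ℝ) / 2 ^ (p + 1)) / 2)))]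
  refine rap_congr (fun p hp => ?_)
  unfold il
  rw [HA_eq hK hp, ← hf.rap_mul (fun j hj => is_hd (by omega) hp)
    (fun j hj => is_tw hK hj hp (fun n => ee (-(n : ℝ) / 2 ^ (p + 1)) / 2)), rap_dgo]
  congr 2
  funext i
  rw [prod_div_distrib, prod_const, card_range, ← ee_sum, ← sum_div, Nat.cast_sum,
    sum_neg_distrib]; rfl

theorem is_ifft {j : ℕ} (hK : K ≤ s) (hj : j < K) :
    (SL (2 ^ s) (2 ^ B) j).Is (ifft (2 ^ s * (2 ^ B) ^ j) B) :=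
  have h := (fam_SL (D := 2 ^ B) hK).ok j hj
  h.is_rap (fun p hp => h.is_mul (is_hd (by omega) hp)
    (is_tw hK hj hp (fun n => ee (-(n : ℝ) / 2 ^ (p + 1)) / 2)))

theorem sd_eq (hK : Qs.length ≤ s) (d : ℕ → ℕ → ℕ → ℕ → ℂ) : sd (2 ^ B, 2 ^ s, Qs, cs) d =
    rap Qs.length (fun j => locM (2 ^ s) (2 ^ B) j (dM (2 ^ B) (d (Qs.getD j 1) (2 ^ B)))) :=
  rap_congr (fun j hj => dgo_eq ((fam_SL hK).ok j hj) _)

theorem rap_locM_mul (hK : K ≤ s) (X Y : ℕ → M2 (2 ^ B)) :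
    rap K (fun j => locM (2 ^ s) (2 ^ B) j (X j)) * rap K (fun j => locM (2 ^ s) (2 ^ B) j (Y j)) =
      rap K (fun j => locM (2 ^ s) (2 ^ B) j (X j * Y j)) := by
  have hf := fam_SL (D := 2 ^ B) hK
  rw [hf.rap_mul (fun j _ => is_locM _ _) (fun j _ => is_locM _ _)]
  exact rap_congr (fun j hj => locM_mul (hf.ok j hj) _ _)

theorem BL_eq (hK : Qs.length ≤ s) (hQ : ∀ j < Qs.length, 0 < Qs.getD j 1) {dir : ℕ}
    (hd : dir = 0 ∨ dir = 1) (ε : ℕ) : BL (2 ^ B, 2 ^ s, Qs, cs) dir ε =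
    rap Qs.length (fun j => locM (2 ^ s) (2 ^ B) j (sM dir
      (dgm (2 ^ B) (d1 dir ε (Qs.getD j 1) (2 ^ B) dir) *
        circ (2 ^ B) (cc dir ε (Qs.getD j 1) (2 ^ B)) *
        dgm (2 ^ B) (d2 dir ε (Qs.getD j 1) (2 ^ B) (1 - dir))))) := by
  have hf := fam_SL (D := 2 ^ B) hK
  have e1 : SH (2 ^ B, 2 ^ s, Qs, cs) dir ε = rap Qs.length (fun j => locM (2 ^ s) (2 ^ B) j
      (sM dir (dgm (2 ^ B) (fun x => eig dir ε (Qs.getD j 1) (2 ^ B) (rv B x))))) := by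
    unfold SH; rw [tB_eq]
    exact rap_congr (fun j hj => l2_eq (hf.ok j hj) hd
      (fun x => eig dir ε (Qs.getD j 1) (2 ^ B) (rv B x)))
  have e2 : PHIi (2 ^ B, 2 ^ s, Qs, cs) * (SH (2 ^ B, 2 ^ s, Qs, cs) dir ε *
      PHI (2 ^ B, 2 ^ s, Qs, cs)) = rap Qs.length (fun j => locM (2 ^ s) (2 ^ B) j
      (sM dir (circ (2 ^ B) (cc dir ε (Qs.getD j 1) (2 ^ B))))) := by
    rw [e1, PHI_eq hK, PHIi_eq hK, rap_congr (fun j hj => fft_eq (by omega)), rap_locM_mul hK,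
      hf.rap_mul (fun j hj => is_ifft hK hj) (fun j _ => is_locM _ _)]
    refine rap_congr (fun j hj => ?_)
    simp only [eig_eq]
    rw [sM_cM dir (Phi_circ _ _), ← locM_mul (hf.ok j hj), ← fft_eq (by omega), ← mul_assoc,
      ifft_fft (by positivity), one_mul]
  unfold BL
  rw [mul_assoc (sd _ _ * PHIi _), mul_assoc (sd _ _), e2, sd_eq hK, sd_eq hK, rap_locM_mul hK,
    rap_locM_mul hK]
  exact rap_congr (fun j hj => by rw [dM_sM hd _ _ (d1_d2 (hQ j hj) dir ε _)])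

theorem BL_BL (hK : Qs.length ≤ s) (hQ : ∀ j < Qs.length, 0 < Qs.getD j 1) {dir : ℕ}
    (hd : dir = 0 ∨ dir = 1) : BL (2 ^ B, 2 ^ s, Qs, cs) dir 0 * BL (2 ^ B, 2 ^ s, Qs, cs) dir 1 =
    rap Qs.length (fun j => locM (2 ^ s) (2 ^ B) j (sM dir (GG dir (Qs.getD j 1) (2 ^ B)))) := by
  rw [BL_eq hK hQ hd, BL_eq hK hQ hd, rap_locM_mul hK]
  exact rap_congr (fun j hj => by rw [sM_mul hd, G_sum (hQ j hj) hd])

theorem msk_eq (hK : Qs.length ≤ s) : sd (2 ^ B, 2 ^ s, Qs, cs) msk =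
    rap Qs.length (fun j => locM (2 ^ s) (2 ^ B) j (cM (PP (Qs.getD j 1) (2 ^ B)))) :=
  sd_eq hK msk

theorem MMo_eq (hK : Qs.length ≤ s) (hQ : ∀ j < Qs.length, 0 < Qs.getD j 1)
    (hQD : ∀ j < Qs.length, Qs.getD j 1 ≤ 2 ^ B) : MMo (2 ^ B, 2 ^ s, Qs, cs) =
    rap Qs.length (fun j => locM (2 ^ s) (2 ^ B) j (MS (Qs.getD j 1) (2 ^ B))) := by
  unfold MMo
  simp only [mul_assoc _ (BL _ _ 0) (BL _ _ 1)]
  rw [BL_BL hK hQ (Or.inl rfl), BL_BL hK hQ (Or.inr rfl), msk_eq hK]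
  simp only [rap_locM_mul hK]
  exact rap_congr (fun j hj => by rw [MS_eq (hQ j hj) (hQD j hj)])

theorem MMo_sq (hK : Qs.length ≤ s) (hQ : ∀ j < Qs.length, 0 < Qs.getD j 1)
    (hQD : ∀ j < Qs.length, Qs.getD j 1 ≤ 2 ^ B) :
    MMo (2 ^ B, 2 ^ s, Qs, cs) * sd (2 ^ B, 2 ^ s, Qs, cs) nrm * sd (2 ^ B, 2 ^ s, Qs, cs) lam *
      MMo (2 ^ B, 2 ^ s, Qs, cs) = sd (2 ^ B, 2 ^ s, Qs, cs) msk := by
  rw [MMo_eq hK hQ hQD, msk_eq hK, sd_eq hK, sd_eq hK]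
  simp only [rap_locM_mul hK]
  exact rap_congr (fun j hj => by rw [MS_sq (hQ j hj) (hQD j hj)])

end

end Crest.Agent.H5.IM
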